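import Vale.Agent.P011LE.IF

/-!
The geometry of the extremal elements: interfaces.
-/

namespace Vale.Agent.P011LS

open P011L P011LD P011LE

section

variable {K : Type} [Field K] [CharZero K]

/-- Conjugation by the exponential of `n`, where `n ^ 3 = 0`. -/
def xp (n X : R K) : R K := ex n * X * ex (-n)

/-- The family of extremal elements. -/
def fam (c : K) (n : R K) (t : K) (n' : R K) (t' : K) : R K :=
  c • xp n (xp (t • e0) (xp n' (xp (t' • f0) e0)))

end

/-- G2: the elements of degree two. -/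
def G2 : Prop :=
  ∀ (K : Type) [Field K] [CharZero K], ∀ y ∈ gl K, e0 * y * e0 = (tr (e0 * y) / 6) • e0

/-- EP: the extremal elements which are opposite to the root element. -/
def EP : Prop :=
  ∀ (K : Type) [Field K] [CharZero K], ∀ y ∈ gl K, y * y = 0 → e0 * y * e0 = e0 →
    ∃ n ∈ gl K, ∃ t : K, Dg 1 n ∧ y = xp n (xp (t • e0) f0)

/-- JM: a rational extremal element has a rational opposite. -/
def JM : Prop :=
  ∀ (k K : Type) [Field k] [NumberField k] [Field K] [CharZero K] [Algebra k K] [IsAlgClosure k K]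
    (o : (K ≃ₐ[k] K) →* ℤˣ) (p : (K ≃ₐ[k] K) → GL I K) (Γ : Subgroup (K ≃ₐ[k] K)) (X : R K),
    DD o p → Xt X → (∀ σ ∈ Γ, ac o p σ X = X) →
    ∃ Y, Xt Y ∧ X * Y * X = X ∧ ∀ σ ∈ Γ, ac o p σ Y = Y

/-- COVER: the family consists of extremal elements and contains all of them. -/
def COVER : Prop :=
  ∀ (K : Type) [Field K] [CharZero K] [Algebra.IsAlgebraic ℚ K] [IsAlgClosed K] (X : R K),
    Xt X ↔ ∃ c n t n' t', c ≠ 0 ∧ n ∈ gl K ∧ Dg 1 n ∧ n' ∈ gl K ∧ Dg (-1) n' ∧ X = fam c n t n' t'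

/-- CONJ: opposite pairs are conjugate to the standard pair. -/
def CONJ : Prop :=
  ∀ (K : Type) [Field K] [CharZero K] [Algebra.IsAlgebraic ℚ K] [IsAlgClosed K] (X Y : R K),
    Xt X → Xt Y → X * Y * X = X → ∃ u ∈ SX K, Ad u e0 = X ∧ Ad u f0 = Y

/-- XT: the sandwich formula for extremal elements. -/
def XT : Prop :=
  ∀ (K : Type) [Field K] [CharZero K] [Algebra.IsAlgebraic ℚ K] [IsAlgClosed K] (X : R K),
    Xt X → ∀ y ∈ gl K, X * y * X = (tr (X * y) / 6) • X

end Vale.Agent.P011LS
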