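import Vale.Agent.P011LE.Defs
import Vale.Agent.P011LG.Psi
import Vale.Agent.P011LT.T1
import Vale.Agent.P011.E6.Ids2

/-!
Twisted actions on the group of type `E₆` come from descent data.
-/

open Matrix

namespace Vale.Agent.P011LS

open P011L P011LD P011LE P011LG P011LT P011.D4 P011.E6 P011.E6.Alb

section

variable {F : Type} [Field F] {a b c : Fˣ}

/-- Linear maps are determined by their values at the singular elements. -/
theorem ext_sing {M : Type} [AddCommGroup M] [Module F M] {f g : Alb a b c →ₗ[F] M}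
    (h : ∀ x, adj x = 0 → f x = g x) (x : Alb a b c) : f x = g x := by
  have e : x = (x.d1 - Oct.norm x.x2 - 1) • e1 + (x.d2 - 1 - Oct.norm x.x3) • e2 +
      (x.d3 - Oct.norm x.x1 - 1) • e3 + ⟨0, 1, Oct.norm x.x1, x.x1, 0, 0⟩ +
      ⟨Oct.norm x.x2, 0, 1, 0, x.x2, 0⟩ + ⟨1, Oct.norm x.x3, 0, 0, 0, x.x3⟩ := by
    ext1 <;> simp [e1, e2, e3] <;> ring
  rw [e]
  simp only [map_add, map_smul]
  rw [h, h, h, h, h, h] <;> ext1 <;> simp [adj, e1, e2, e3]

/-- A linear map which commutes with the norm preserving maps is a scalar. -/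
theorem schurA [CharZero F] (hsq : ∀ t : F, IsSquare t) (f : Alb a b c →ₗ[F] Alb a b c)
    (h : ∀ φ ∈ Inv a b c, ∀ x, f (φ x) = φ (f x)) : ∃ z : F, ∀ x, f x = z • x := by
  let g : Fin 3 → Fˣ := ![Units.mk0 4 (by norm_num), Units.mk0 2⁻¹ (by norm_num),
    Units.mk0 2⁻¹ (by norm_num)]
  have h1 := h (wtE g) (fun x => by rw [wtE_apply, cub_wt]; simp [gam, g]; norm_num) e1
  have h2 : wtE g (e1 : Alb a b c) = (16 : F) • e1 := by
    ext1 <;> simp [wt, e1, g]
    norm_num
  rw [h2, map_smul, wtE_apply] at h1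
  have k : ∀ {t : F} {y : Oct a b c}, t ≠ 16 → (16 : F) • y = t • y → y = 0 := fun {t y} ht e =>
    (smul_eq_zero.1 (by rw [sub_smul, e, sub_self] : (16 - t) • y = 0)).resolve_left
      (sub_ne_zero.2 ht.symm)
  have h3 : f e1 = (f e1).d1 • e1 := by
    generalize f e1 = y at h1
    have a2 := congrArg Alb.d2 h1
    have a3 := congrArg Alb.d3 h1
    have b1 := congrArg Alb.x1 h1
    have b2 := congrArg Alb.x2 h1
    have b3 := congrArg Alb.x3 h1
    simp only [wt, g, d2_smul, d3_smul, x1_smul, x2_smul, x3_smul, cons_val, Units.val_mk0]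
      at a2 a3 b1 b2 b3
    ext1 <;> simp only [d1_smul, d2_smul, d3_smul, x1_smul, x2_smul, x3_smul, e1, mul_one, mul_zero,
      smul_zero]
    · linear_combination (4 / 63 : F) * a2
    · linear_combination (4 / 63 : F) * a3
    · exact k (by norm_num) b1
    · exact k (by norm_num) b2
    · exact k (by norm_num) b3
  refine ⟨(f e1).d1, fun y => ext_sing (f := f) (g := (f e1).d1 • LinearMap.id)
    (fun x hx => ?_) y⟩
  by_cases h0 : x = 0
  · simp [h0]
  obtain ⟨φ, h4, rfl⟩ := trans_sing hsq h0 hx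
  rw [h φ (El_le h4), h3, map_smul]
  simp [e1]

theorem schur [CharZero F] (hsq : ∀ t : F, IsSquare t) (M : Matrix I I F)
    (h : ∀ g ∈ SE F, M * g.1 = g.1 * M) : ∃ z : F, M = z • 1 := by
  obtain ⟨z, hz⟩ := schurA hsq ((Psi 1 1 1 1).toLinearMap ∘ₗ M.toLin' ∘ₗ
    (Psi 1 1 1 1).symm.toLinearMap) fun φ hφ x => by
      obtain ⟨g, rfl⟩ := (toA 1 1 1 1).surjective φ
      obtain ⟨y, rfl⟩ := (Psi 1 1 1 1).surjective x
      simp [toA_apply, h g ((toA_mem 1 1 1 1 (mul_one 1).symm).1 hφ)]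
  refine ⟨z, toLin'.injective (LinearMap.ext fun y => (Psi 1 1 1 1).injective ?_)⟩
  simpa using hz (Psi 1 1 1 1 y)

end

variable {k K : Type} [Field k] [Field K] [Algebra k K]

/-- The standard actions. -/
def su {n : Type} [Fintype n] [DecidableEq n] (ε : ℤˣ) (σ : K ≃ₐ[k] K) : GL n K →* GL n K :=
  if ε = 1 then GeneralLinearGroup.map (σ : K →+* K)
  else it.comp (GeneralLinearGroup.map (σ : K →+* K))

theorem su_one {n : Type} [Fintype n] [DecidableEq n] (σ : K ≃ₐ[k] K) (g : GL n K) :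
    (su 1 σ g).1 = g.1.map σ := rfl

theorem su_neg {n : Type} [Fintype n] [DecidableEq n] (σ : K ≃ₐ[k] K) (g : GL n K) :
    (su (-1) σ g).1 = (g⁻¹.1.map σ)ᵀ := rfl

theorem su_su {n : Type} [Fintype n] [DecidableEq n] (ε δ : ℤˣ) (σ τ : K ≃ₐ[k] K) (g : GL n K) :
    su ε σ (su δ τ g) = su (ε * δ) (σ * τ) g := by
  rcases Int.units_eq_one_or ε with rfl | rfl <;> rcases Int.units_eq_one_or δ with rfl | rfl <;>
    exact Units.ext rfl

theorem su_mem (hsq : ∀ t : K, IsSquare t) [CharZero K] (ε : ℤˣ) (σ : K ≃ₐ[k] K) {g : GL I K}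
    (h : g ∈ SE K) : su ε σ g ∈ SE K := by
  rcases Int.units_eq_one_or ε with rfl | rfl
  · exact map_SE (σ : K ≃+* K) h
  · obtain ⟨g', h1, h2⟩ := SE_invT hsq (map_SE (σ : K ≃+* K) h)
    exact (Units.ext h2 : g' = su (-1) σ g) ▸ h1

/-- `σ` acts through `s`. -/
def Rp (T : Tw k (SE K)) (ε : ℤˣ) (σ : K ≃ₐ[k] K) (s : GL I K) : Prop :=
  ∀ g, (T.a σ g).1 * s = s * su ε σ g.1

variable {T : Tw k (SE K)}

theorem Rp.mul {ε δ : ℤˣ} {σ τ : K ≃ₐ[k] K} {s t : GL I K} (h : Rp T ε σ s) (h' : Rp T δ τ t) :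
    Rp T (ε * δ) (σ * τ) (s * su ε σ t) := fun g => by
  rw [map_mul, MulAut.mul_apply, ← mul_assoc, h, mul_assoc, ← map_mul, h', map_mul, su_su,
    mul_assoc]

theorem cub_smul' (t : K) (x : I → K) : P011L.cub (t • x) = t ^ 3 * P011L.cub x := by
  simp [P011L.cub, det_fin_three, trace_fin_three, mul_apply, Fin.sum_univ_three]
  ring

variable [IsAlgClosed K] [CharZero K]

omit [CharZero K] in
theorem hsq (t : K) : IsSquare t :=
  (IsAlgClosed.exists_eq_mul_self t).elim fun r h => ⟨r, h⟩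

theorem Rp.uniq {ε δ : ℤˣ} {σ : K ≃ₐ[k] K} {s t : GL I K} (h : Rp T ε σ s) (h' : Rp T δ σ t) :
    ε = δ ∧ ∃ z : K, s.1 = z • t.1 := by
  have e : ε = δ := by
    obtain ⟨ω, hω⟩ := IsAlgClosed.exists_root (Polynomial.X ^ 2 + Polynomial.X + 1 : Polynomial K)
      (by rw [show (Polynomial.X ^ 2 + Polynomial.X + 1 : Polynomial K).degree = 2 by
        compute_degree!]; decide)
    have h1 : ω ^ 2 + ω + 1 = 0 := by simpa using hω
    have h3 : ω * ω ^ 2 = 1 := by linear_combination (ω - 1) * h1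
    let u : GL I K := ⟨ω • 1, ω ^ 2 • 1, by simp [smul_smul, mul_comm, h3], by simp [smul_smul, h3]⟩
    have hu : u ∈ SE K := mem_SE.2 fun x => by
      simp only [u, smul_mulVec, one_mulVec, cub_smul']
      linear_combination P011L.cub x * h3
    have k1 : ∀ {ε s}, Rp T ε σ s → (T.a σ ⟨u, hu⟩).1.1 = (if ε = 1 then σ ω else σ ω ^ 2) • 1 := by
      intro ε s h
      have := congrArg (fun x : GL I K => x.1 * (s⁻¹).1) (h ⟨u, hu⟩)
      simp only [Units.val_mul, mul_assoc, Units.mul_inv, mul_one] at this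
      rw [this]
      rcases Int.units_eq_one_or ε with rfl | rfl
      · rw [su_one, P011LD.map_smul', map_one', if_pos rfl]
        simp
      · rw [su_neg, show u⁻¹.1 = ω ^ 2 • 1 from rfl, P011LD.map_smul', map_one', if_neg (by decide)]
        simp
    have k2 := congrFun₂ ((k1 h).symm.trans (k1 h')) 0 0
    have k3 : σ ω ≠ σ ω ^ 2 := fun e => by
      rw [← map_pow, σ.injective.eq_iff] at e
      have : (3 : K) = 0 := by linear_combination 4 * h1 - (2 * ω + 1) * (h1 + e)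
      norm_num at this
    simp only [Matrix.smul_apply, one_apply_eq, smul_eq_mul, mul_one] at k2
    rcases Int.units_eq_one_or ε with rfl | rfl <;> rcases Int.units_eq_one_or δ with rfl | rfl
    · rfl
    · exact absurd (by simpa using k2) k3
    · exact absurd (by simpa using k2.symm) k3
    · rfl
  subst e
  obtain ⟨z, hz⟩ := schur hsq (t⁻¹ * s).1 fun g hg => by
    have e1 : su ε σ (su ε σ⁻¹ g) = g := by
      rw [su_su, Int.units_mul_self, mul_inv_cancel]
      exact Units.ext rfl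
    have e2 := h ⟨_, su_mem hsq ε σ⁻¹ hg⟩
    have e3 := h' ⟨_, su_mem hsq ε σ⁻¹ hg⟩
    simp only [e1] at e2 e3
    rw [← Units.val_mul, ← Units.val_mul, mul_assoc, ← e2, ← mul_assoc, ← mul_assoc,
      eq_mul_inv_of_mul_eq e3]
    simp [mul_assoc]
  refine ⟨rfl, z, ?_⟩
  rw [← mul_inv_cancel_left t s, Units.val_mul, hz, Matrix.mul_smul, mul_one]

/-- The standard action as an automorphism of the group. -/
def ge (σ : K ≃ₐ[k] K) : SE K ≃* SE K where
  toFun g := ⟨_, map_SE (σ : K ≃+* K) g.2⟩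
  invFun g := ⟨_, map_SE (σ.symm : K ≃+* K) g.2⟩
  left_inv _ := Subtype.ext (Units.ext (Matrix.ext fun _ _ => σ.symm_apply_apply _))
  right_inv _ := Subtype.ext (Units.ext (Matrix.ext fun _ _ => σ.apply_symm_apply _))
  map_mul' _ _ := Subtype.ext (map_mul _ _ _)

theorem exists_rp (h : CE) (T : Tw k (SE K)) (σ : K ≃ₐ[k] K) :
    ∃ ε, ∃ s ∈ SE K, Rp T ε σ s := by
  obtain ⟨s, hs, h1⟩ := h K ((ge σ).symm.trans (T.a σ)) (fun i j => (T.pol σ i j).imp
    fun p hp g => (hp _).trans (congrArg (fun x => MvPolynomial.eval x p)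
      (funext fun _ => σ.apply_symm_apply _))) fun i j => (T.pol σ⁻¹ i j).elim fun p hp =>
      ⟨MvPolynomial.map (σ : K →+* K) p, fun g => by
        have := congrArg σ (hp g)
        rw [map_eval, map_inv] at this
        exact this.trans (congrArg (fun x => MvPolynomial.eval x _)
          (funext fun _ => σ.apply_symm_apply _))⟩
  rcases h1 with h1 | h1
  · refine ⟨1, s, hs, fun g => Units.ext ?_⟩
    have := h1 (ge σ g)
    rwa [MulEquiv.trans_apply, MulEquiv.symm_apply_apply] at this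
  · refine ⟨-1, s, hs, fun g => Units.ext ?_⟩
    have := h1 (ge σ g)
    rwa [MulEquiv.trans_apply, MulEquiv.symm_apply_apply] at this

theorem dde' (h : CE) (T : Tw k (SE K)) :
    ∃ o p, P011LE.DD o p ∧ Rep T o p ∧ ∀ σ, p σ ∈ SE K := by
  choose ε s hs h1 using exists_rp h T
  let o : (K ≃ₐ[k] K) →* ℤˣ := MonoidHom.mk' ε fun σ τ => ((h1 _).uniq ((h1 σ).mul (h1 τ))).1
  refine ⟨o, s, ⟨⟨fun σ τ => (((h1 σ).mul (h1 τ)).uniq (h1 _)).2, ?_⟩,
    fun σ => ⟨1, one_ne_zero, fun x => by rw [mem_SE.1 (hs σ), one_mul]⟩⟩, h1, hs⟩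
  obtain ⟨F, h2, h3⟩ := T.cont
  exact Op.of_field F fun σ _ e => (h1 σ).uniq (δ := 1) (t := 1) fun g =>
    Units.ext (by rw [mul_one, one_mul]; exact h3 σ e g)

omit [IsAlgClosed K] [CharZero K] in
theorem dde (h : CE) : DDE := fun k K _ _ _ _ _ T => by
  have := IsAlgClosure.isAlgClosed k (K := K)
  have : CharZero K := charZero_of_injective_algebraMap (algebraMap k K).injective
  obtain ⟨o, p, h1, h2, -⟩ := dde' h T
  exact ⟨o, p, h1, h2⟩

end Vale.Agent.P011LS
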