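import Vale.Agent.P011LS.NF
import Vale.Agent.P011LX.Rel
import Vale.Agent.P011.Arith.Schilling

/-!
The inner forms of type `E₆`, and the assembly.
-/

open Matrix

namespace Vale.Agent.P011LS

open P011L P011LD P011LE P011LG P011LX P011.D4 P011.E6

/-- AE: a rational extremal element gives a split torus. -/
def AE : Prop :=
  ∀ (k K : Type) [Field k] [NumberField k] [Field K] [Algebra k K] [IsAlgClosure k K]
    (T : Tw k (SE K)) (o : (K ≃ₐ[k] K) →* ℤˣ) (p : (K ≃ₐ[k] K) → GL I K), P011LE.DD o p →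
    Rep T o p → ∀ X, Ext X → (∀ σ, FixL o p σ X) → ¬T.Ani

/-- IE: split octonions give a rational extremal element. -/
def IE : Prop :=
  ∀ (k K : Type) [Field k] [NumberField k] [Field K] [Algebra k K] [IsAlgClosure k K]
    (p : (K ≃ₐ[k] K) → GL I K) (π : (K ≃ₐ[k] K) →* Equiv.Perm (Fin 3)) (a b c : kˣ)
    (Ψ : (I → K) ≃ₗ[K] AlbL K a b c), PD 1 p → INF p π a b c Ψ → ¬Oct.Division a b c →
    ∃ X, Ext X ∧ ∀ σ, FixL 1 p σ X

/-- OE: the outer forms. -/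
def OE : Prop :=
  ∀ (k K : Type) [Field k] [NumberField k] [Field K] [Algebra k K] [IsAlgClosure k K]
    (T : Tw k (SE K)) (o : (K ≃ₐ[k] K) →* ℤˣ) (p : (K ≃ₐ[k] K) → GL I K), P011LE.DD o p →
    Rep T o p → (∃ σ, o σ ≠ 1) → T.Ani → PSimple T.fix

theorem ext1 (hn : NF1) (he : IE) : EXT1 := fun k K _ _ _ _ _ p h0 h => by
  obtain ⟨π, a, b, c, Ψ, h1⟩ := hn k K p h
  refine he k K p π a b c Ψ h.pd h1 fun hd => ?_
  obtain ⟨x, y, z, t, e⟩ := P011.Arith.Sch.quaternion_norm a b c fun φ => h0.elim φ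
  have := hd ⟨⟨x, y, z, t⟩, 1⟩ (by simp [Oct.norm, P011.MPQ.nrd, e])
  simpa using congrArg (fun x : Oct a b c => x.snd.re) this

variable {k K : Type} [Field k] [Field K] [Algebra k K] {a b c : kˣ} {T : Tw k (SE K)}
  {p : (K ≃ₐ[k] K) → GL I K} {π : (K ≃ₐ[k] K) →* Equiv.Perm (Fin 3)}
  {Ψ : (I → K) ≃ₗ[K] AlbL K a b c}

theorem cj_of (h : Rep T 1 p) {σ : K ≃ₐ[k] K} {M : AlbL K a b c → AlbL K a b c}
    (h1 : ∃ μ : K, ∀ x, Ψ ((p σ).1 *ᵥ (σ ∘ x)) = μ • M (Ψ x)) (g : SE K) (y : AlbL K a b c) :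
    cj Ψ (T.a σ g) (M y) = M (cj Ψ g y) := by
  obtain ⟨μ, h1⟩ := h1
  obtain ⟨x, rfl⟩ := Ψ.surjective y
  have h2 : μ ≠ 0 := fun e => by
    have := congrArg (fun y => ((p σ)⁻¹.1 *ᵥ Ψ.symm y) 0) (h1 1)
    simp [e] at this
  have h3 : (T.a σ g).1.1 * (p σ).1 = (p σ).1 * g.1.1.map σ := congrArg Units.val (h σ g)
  apply smul_right_injective _ h2
  simp only [cj, LinearEquiv.symm_apply_apply, ← h1]
  rw [← map_smul, ← mulVec_smul, ← map_smul, ← h1, LinearEquiv.symm_apply_apply, mulVec_mulVec, h3,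
    ← mulVec_mulVec]
  exact congrArg (fun v => Ψ (_ *ᵥ v)) (P011LT.map_mulVec' (σ : K →+* K) _ x)

theorem exists_pow (h : ∀ σ, π σ ^ 3 = 1) {r : K ≃ₐ[k] K} (hr : π r = finRotate 3)
    (σ : K ≃ₐ[k] K) : ∃ i : ℕ, (r ^ i)⁻¹ * σ ∈ π.ker := by
  obtain ⟨i, e⟩ := (by decide : ∀ g : Equiv.Perm (Fin 3), g ^ 3 = 1 → ∃ i : Fin 3,
    (finRotate 3 ^ i.1)⁻¹ * g = 1) _ (h σ)
  exact ⟨i, by rw [MonoidHom.mem_ker, map_mul, map_inv, map_pow, hr, e]⟩

theorem spl_of (h : PD 1 p) (h1 : INF p π a b c Ψ) {r : K ≃ₐ[k] K} (hr : π r = finRotate 3) {e : Kˣ}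
    (he : ∀ σ : K ≃ₐ[k] K, σ e = e)
    (h2 : ∃ μ : K, ∀ x, Ψ ((p r).1 *ᵥ (r ∘ x)) = μ • P011.E6H.ph r e (Ψ x)) {x : K}
    (hx : ∀ σ ∈ π.ker, σ x = x) (h3 : x * r x * r (r x) = e) : Spl 1 p := by
  have x0 := (h3 ▸ e.ne_zero : x * r x * r (r x) ≠ 0)
  simp only [mul_ne_zero_iff] at x0
  obtain ⟨⟨x0, x1⟩, x2⟩ := x0
  obtain ⟨v, hv⟩ := Ψ.surjective (dia 1 (e / x) (e ^ 2 / (x * r x)))
  let S : (K ≃ₐ[k] K) → Prop := fun σ => ∃ μ : K, (p σ).1 *ᵥ (σ ∘ v) = μ • v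
  have s1 : ∀ σ τ, S σ → S τ → S (σ * τ) := fun σ τ ⟨μ, e1⟩ ⟨ν, e2⟩ => by
    obtain ⟨z, e3⟩ := h.mul σ τ
    have z0 : z ≠ 0 := fun e => Units.ne_zero _ (by rw [e3, e, zero_smul])
    have e4 : (p σ).1 * (p τ).1.map σ = _ := e3
    refine ⟨z⁻¹ * (σ ν * μ), smul_right_injective _ z0 ?_⟩
    simp only [← smul_mulVec, ← e4, ← mulVec_mulVec, smul_smul, mul_inv_cancel_left₀ z0]
    rw [mul_smul, ← e1, ← mulVec_smul]
    refine congrArg _ ((P011LT.map_mulVec' (σ : K →+* K) _ (τ ∘ v)).trans ?_)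
    rw [e2]
    exact funext fun i => map_mul σ _ _
  have s2 : ∀ σ ∈ π.ker, S σ := fun σ s => (h1.gal σ s).imp fun μ e1 => Ψ.injective (by
    have : σ (r x) = r x := by
      exact (r.apply_symm_apply _).symm.trans
        (congrArg r (hx (r⁻¹ * σ * r) (by simp [MonoidHom.mem_ker.1 s])))
    rw [e1, map_smul, hv]
    congr 1
    ext1 <;> simp [amap, dia, he, hx σ s, this])
  have s3 : S r := h2.elim fun μ e1 => ⟨μ * x, Ψ.injective (by
    rw [e1, map_smul, hv, mul_smul]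
    congr 1
    have := e.ne_zero
    ext1 <;> simp [P011.E6H.ph, dia, he] <;> field_simp
    linear_combination -h3)⟩
  refine ⟨v, fun e0 => ?_, fun σ _ => ?_⟩
  · simpa [e0, dia] using congrArg Alb.d1 hv
  · obtain ⟨i, hi⟩ := exists_pow h1.cyc hr σ
    rw [← mul_inv_cancel_left (r ^ i) σ]
    refine s1 _ _ ?_ (s2 _ hi)
    clear hi
    induction i with
    | zero => exact s2 _ (one_mem _)
    | succ i ih => exact pow_succ r i ▸ s1 _ _ ih s3

theorem not_ani [IsAlgClosed K] [CharZero K] (h1 : ∃ μ : K, μ ≠ 0 ∧ ∀ x, Alb.cub (Ψ x) = μ * cub x)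
    (h2 : ∀ σ g x, cj Ψ (T.a σ g) (amap σ x) = amap σ (cj Ψ g x)) : ¬T.Ani := fun h => by
  obtain ⟨r, hr⟩ := IsAlgClosed.exists_eq_mul_self (up K c : Kˣ).1
  have r0 : r ≠ 0 := fun e => (up K c).ne_zero (by rw [hr, e, zero_mul])
  choose l hl using fun t : Kˣ => exists_cj h1 (wkE ![t.1, t⁻¹.1, 1] fun i => by
    fin_cases i <;> simp) fun x => by rw [wkE_apply, cub_wk]; simp
  let f := (Psi _ _ (up K c) (Units.mk0 r r0)).trans Ψ.symm
  let w : Fin 3 → ℤ := ![1, -1, 0]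
  have := h ⟨LinearMap.toMatrix' f.toLinearMap, LinearMap.toMatrix' f.symm.toLinearMap,
    by rw [← LinearMap.toMatrix'_comp]; simp, by rw [← LinearMap.toMatrix'_comp]; simp⟩
    (fun e => ![w e.2.1 + w e.2.2, -w e.2.1, -w e.2.2] e.1) l (fun t => ?_) fun σ t => ?_
  · simpa [w] using congrFun this (0, 0, 0)
  · refine toLin'.injective (LinearMap.ext fun x => Ψ.injective ?_)
    have := hl t (Psi _ _ (up K c) (Units.mk0 r r0) x)
    simp only [toLin'_mul, toLin'_toMatrix', LinearMap.comp_apply, toLin'_apply, f,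
      LinearEquiv.coe_coe, LinearEquiv.trans_apply, LinearEquiv.apply_symm_apply]
    refine this.trans ?_
    have := t.ne_zero
    rw [wkE_apply, Psi_apply, Psi_apply]
    ext1 <;> simp [wk, mulVec_diagonal, w, zpow_ofNat, zo_smul]
  · refine Subtype.ext ((cjE Ψ).injective (LinearEquiv.ext fun x => ?_))
    have e : amap σ (amap σ⁻¹ x) = x := crd.injective (by
      rw [crd_amap, crd_amap]; exact funext fun i => σ.apply_symm_apply _)
    rw [← e, ← cj_eq, ← cj_eq, h2, hl, hl, wkE_apply, wkE_apply]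
    ext1 <;> simp [wk, amap, omap_smul]

theorem he_of' (hd : DDE) (hn : NF1) (h1 : AE) (h2 : IE) (h4 : DICT4) (ho : OE) : HE :=
  fun k K _ _ _ _ _ T ha => by
    have := IsAlgClosure.isAlgClosed k (K := K)
    have : CharZero K := charZero_of_injective_algebraMap (algebraMap k K).injective
    obtain ⟨o, p, h, hr⟩ := hd k K T
    by_cases e : ∃ σ, o σ ≠ 1
    · exact ho k K T o p h hr e ha
    obtain rfl : o = 1 := MonoidHom.ext fun σ => not_not.1 fun e' => e ⟨σ, e'⟩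
    obtain ⟨π, a, b, c, Ψ, h3⟩ := hn k K p h
    obtain e1 | ⟨e1, r, e, e2, e3, e4⟩ := h3.ph
    · exact absurd ha (not_ani h3.cub fun σ => cj_of hr (h3.gal σ (by rw [e1]; rfl)))
    refine h4 k K T π.ker a b c Ψ r e ⟨inferInstance, h3.op, h3.cub, fun σ s =>
      cj_of hr (h3.gal σ s)⟩ ⟨fun s => absurd (e2.symm.trans s) (by decide), by
        rw [MonoidHom.mem_ker, map_pow, h3.cyc], fun σ _ => e3 σ, e3 r,
        fun x hx e5 => e1 (spl_of h.pd h3 e2 e3 e4 hx e5), cj_of hr e4⟩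
      (exists_pow h3.cyc e2) (not_not.1 fun e5 => ?_)
    obtain ⟨X, x1, x2⟩ := h2 k K p π a b c Ψ h.pd h3 e5
    exact h1 k K T 1 p h hr X x1 x2 ha

end Vale.Agent.P011LS
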