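import Vale.Agent.P011LS.Ta
import Vale.Agent.P011LS.Inn

/-!
A rational extremal element gives a split torus.
-/

open Matrix

namespace Vale.Agent.P011LS

open P011L P011LD P011LE

variable {k K : Type} [Field k] [Field K] [Algebra k K] [CharZero K] {h : R K}

/-- The cocharacter defined by an element with `h ^ 3 = h`. -/
noncomputable def cc (h : R K) (t : K) : R K :=
  1 + ((t - t⁻¹) / 2) • h + ((t + t⁻¹) / 2 - 1) • (h * h)

theorem cc_mul (h3 : h * h * h = h) {s t : K} (hs : s ≠ 0) (ht : t ≠ 0) :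
    cc h s * cc h t = cc h (s * t) := by
  have e1 : h * (h * h) = h := by rw [← mul_assoc, h3]
  have e2 : h * h * (h * h) = h * h := by rw [← mul_assoc, h3]
  simp only [cc, mul_add, add_mul, one_mul, mul_one, smul_mul_assoc, mul_smul_comm, h3, e1, e2]
  match_scalars <;> field_simp <;> ring

theorem cc_one : cc h 1 = 1 := by simp [cc]

theorem cc_eig {x : J K} {n : ℤ} (hn : n = 0 ∨ n = 1 ∨ n = -1) (e : h x = (n : K) • x) (t : Kˣ) :
    cc h t x = (t ^ n).1 • x := by
  simp only [cc, LinearMap.add_apply, LinearMap.smul_apply, Module.End.mul_apply,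
    Module.End.one_apply, e, map_smul]
  rcases hn with rfl | rfl | rfl <;> simp <;> module

theorem eig_span (h3 : h * h * h = h) (x : J K) : ∃ a b c : J K, x = a + b + c ∧
    h a = ((0 : ℤ) : K) • a ∧ h b = ((1 : ℤ) : K) • b ∧ h c = ((-1 : ℤ) : K) • c := by
  have e : h (h (h x)) = h x := LinearMap.congr_fun h3 x
  refine ⟨x - h (h x), (2⁻¹ : K) • (h (h x) + h x), (2⁻¹ : K) • (h (h x) - h x), by module, ?_, ?_,
    ?_⟩ <;> simp only [map_sub, map_add, map_smul, e] <;> module

theorem cc_sm (h3 : h * h * h = h) (a : Lie h) (t : Kˣ) : Sm 1 (cc h t) := sm_of_T fun x => by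
  obtain ⟨x, y, z, rfl, ex, ey, ez⟩ := eig_span h3 x
  have := t.ne_zero
  have h1 := a x x y
  have h2 := a x x z
  have h3 := a x y y
  have h4 := a x z z
  have h5 := a y y y
  have h6 := a y y z
  have h7 := a y z z
  have h8 := a z z z
  rw [map_add (cc h t), map_add (cc h t), cc_eig (by simp) ex, cc_eig (by simp) ey, cc_eig (by simp) ez]
  simp only [ex, ey, ez, map_add, map_smul, LinearMap.add_apply, LinearMap.smul_apply, smul_eq_mul,
    T_sw y x, T_sw z x, T_sw z y, T_sw' _ y x, T_sw' _ z x, T_sw' _ z y, zpow_zero, zpow_one,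
    _root_.zpow_neg, Units.val_one, Units.val_inv_eq_inv_val, Int.cast_zero, Int.cast_one,
    Int.cast_neg] at h1 h2 h3 h4 h5 h6 h7 h8 ⊢
  have k1 : T x x y = 0 := by linear_combination h1
  have k2 : T x x z = 0 := by linear_combination -h2
  have k3 : T x y y = 0 := by linear_combination h3 / 2
  have k4 : T x z z = 0 := by linear_combination -h4 / 2
  have k5 : T y y y = 0 := by linear_combination h5 / 3
  have k6 : T y y z = 0 := by linear_combination h6
  have k7 : T y z z = 0 := by linear_combination -h7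
  have k8 : T z z z = 0 := by linear_combination -h8 / 3
  rw [k1, k2, k3, k4, k5, k6, k7, k8]
  field_simp
  ring

/-- The cocharacter with values in the group. -/
noncomputable def cg (h3 : h * h * h = h) (a : Lie h) (t : Kˣ) : SE K :=
  ⟨EU.symm ⟨cc h t, cc h t⁻¹.1, by
    rw [cc_mul h3 t.ne_zero t⁻¹.ne_zero, Units.mul_inv, cc_one], by
    rw [cc_mul h3 t⁻¹.ne_zero t.ne_zero, Units.inv_mul, cc_one]⟩, P011LT.mem_SE.2 fun x =>
      (sm_E.1 (by rw [← EU_val, MulEquiv.apply_symm_apply]; exact cc_sm h3 a t) x).trans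
        (one_mul _)⟩

theorem cg_val (h3 : h * h * h = h) (a : Lie h) (t : Kˣ) : E (cg h3 a t).1.1 = cc h t :=
  congrArg Units.val (EU.apply_symm_apply _)

theorem cg_inv (h3 : h * h * h = h) (a : Lie h) (t : Kˣ) : E (cg h3 a t).1⁻¹.1 = cc h t⁻¹.1 :=
  congrArg Units.val ((map_inv EU _).trans (congrArg Inv.inv (EU.apply_symm_apply _)))

theorem not_ani_of {T : Tw k (SE K)} {o : (K ≃ₐ[k] K) →* ℤˣ} {p : (K ≃ₐ[k] K) → GL I K}
    (hr : Rep T o p) (h3 : h * h * h = h) (a : Lie h) (h0 : h ≠ 0) (hf : ∀ σ, ta o p σ h = h) :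
    ¬T.Ani := fun an => by
  let S : Set (I → K) := {v | ∃ n : ℤ, (n = 0 ∨ n = 1 ∨ n = -1) ∧ h (co.symm v) = (n : K) • co.symm v}
  obtain ⟨s, s1, s2, s3⟩ := exists_linearIndependent K S
  have e : ⊤ ≤ Submodule.span K (Set.range (Subtype.val : s → I → K)) := fun v _ => by
    obtain ⟨y, rfl⟩ := co.surjective v
    obtain ⟨x, y, z, rfl, ex, ey, ez⟩ := eig_span h3 y
    rw [Subtype.range_coe, s2, map_add, map_add]
    refine add_mem (add_mem ?_ ?_) ?_ <;> apply Submodule.subset_span
    · exact ⟨0, by simp, by rwa [LinearEquiv.symm_apply_apply]⟩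
    · exact ⟨1, by simp, by rwa [LinearEquiv.symm_apply_apply]⟩
    · exact ⟨-1, by simp, by rwa [LinearEquiv.symm_apply_apply]⟩
  let b0 := Module.Basis.mk s3 e
  have := FiniteDimensional.fintypeBasisIndex b0
  let b := b0.reindex (Fintype.equivOfCardEq ((Module.finrank_eq_card_basis b0).symm.trans
    (Module.finrank_fintype_fun_eq_card K)))
  have hb (i : I) : b i ∈ S := by
    rw [Module.Basis.reindex_apply, Module.Basis.mk_apply]
    exact s1 (Subtype.prop _)
  choose y y1 y2 using hb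
  have := an ((Matrix.linearIndependent_cols_iff_isUnit (A := (Matrix.of fun i j => b j i))).1
    b.linearIndependent).unit y (cg h3 a) (fun t => Matrix.ext fun i j => ?_) fun σ t => ?_
  · refine h0 ((b.map co.symm).ext fun i => ?_)
    rw [Module.Basis.map_apply, y2, this]
    simp
  · have := congrFun (congrArg co (cc_eig (y1 j) (y2 j) t)) i
    rw [← cg_val h3 a, co_E, map_smul, LinearEquiv.apply_symm_apply] at this
    rw [mul_diagonal, mul_comm]
    exact this
  · refine Subtype.ext (mul_right_cancel ((hr σ _).trans (EU.injective (Units.ext ?_))))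
    have e1 := hf σ
    rw [map_mul, map_mul, Units.val_mul, Units.val_mul, EU_val (cg h3 a _).1, cg_val, ← Ad_eq]
    unfold ta sa at e1
    unfold st
    split_ifs at e1 ⊢
    · change Ad _ (E ((cg h3 a t).1.1.map (σ : K →+* K))) = _
      rw [← cj_E, cg_val]
      simp [cc, cj_smul, Ad_add, Ad_smul, Ad_mul', Ad_1, e1, map_ofNat]
    · change Ad _ (E ((cg h3 a t).1⁻¹.1.map (σ : K →+* K))ᵀ) = _
      rw [Ad_neg, neg_eq_iff_eq_neg] at e1
      rw [← tp_E, ← cj_E, cg_inv]
      simp [cc, cj_smul, Ad_add, Ad_smul, Ad_mul', Ad_1, e1, add_comm, map_ofNat]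
      module

theorem ae : AE := fun k K _ _ _ _ _ T o p hp hr X hX hf => by
  have := IsAlgClosure.isAlgClosed k (K := K)
  have : CharZero K := charZero_of_injective_algebraMap (algebraMap k K).injective
  have : Algebra.IsAlgebraic ℚ K := Algebra.IsAlgebraic.trans ℚ k K
  have x := ext_iff_xt.1 hX
  obtain ⟨y, m, e, f⟩ := ginv_fix o (Γ := ⊤) hp x fun σ _ => (fixL_iff o).1 (hf σ)
  have f' (σ) := (fixL_iff o).1 (hf σ)
  generalize E X = Y at x e f'
  have q1 (w : R K) : Y * (Y * w) = 0 := by rw [← mul_assoc, x.sq, zero_mul]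
  have q2 (w : R K) : Y * (y * (Y * w)) = Y * w := by rw [← mul_assoc, ← mul_assoc, e]
  have q3 : Y * (y * Y) = Y := by rw [← mul_assoc, e]
  refine not_ani_of hr (h := Y * y - y * Y) ?_ (gl_br x.mem m).1 (fun e0 => x.ne ?_) fun σ => by
    rw [ta_br, f', f σ trivial]
  · simp [mul_sub, sub_mul, mul_assoc, q1, q2, q3]
  · simpa [sub_mul, mul_assoc, x.sq, q3] using congrArg (· * Y) e0

end Vale.Agent.P011LS
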