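import Vale.Agent.P011LS.Jm
import Vale.Agent.P011LS.Ae
import Vale.Agent.P011LE.Gr
import Vale.Agent.P011LP.Ep
import Vale.Agent.P011LM.P3

/-!
The extremal elements form one orbit, which is covered by two unipotent groups.
-/

namespace Vale.Agent.P011LS

open P011L P011LD P011LE

variable {K : Type} [Field K] [CharZero K] {X Y n y : R K}

theorem dg_2 (h2 : G2) (m : y ∈ gl K) (a : Dg 2 y) : ∃ c : K, y = c • e0 := by
  refine ⟨_, Eq.trans ?_ (h2 K _ (Xt.xyx xt_f0 m))⟩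
  rw [blocks y, a.blk pa_h h_pa, a.blk pa_h h_pb, a.blk pb_h h_pa, a.blk pb_h h_pb,
    a.blk pb_h h_pc, a.blk pc_h h_pa, a.blk pc_h h_pb, a.blk pc_h h_pc, ← ef, ← fe]
  · simp [mul_assoc, fef', fef]
  all_goals norm_num

theorem cube {i : ℤ} (a : Dg i n) (h : i ≠ 0) : n * n * n = 0 := ((a.mul a).mul a).van (by omega)

theorem cube_e (t : K) : (t • e0 : R K) * (t • e0) * (t • e0) = 0 :=
  cube (dg_e0.smul t) two_ne_zero

theorem cube_f (t : K) : (t • f0 : R K) * (t • f0) * (t • f0) = 0 :=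
  cube (dg_f0.smul t) (by decide)

theorem xp_eq (h : n * n * n = 0) (X : R K) : xp n X = Ad (eu n h) X := rfl

omit [CharZero K] in
theorem tp_xp (n X : R K) : tp (xp n X) = xp (-tp n) (tp X) := by
  simp [xp, ex, mul_assoc]

theorem xp_coef (φ : R K →ₗ[K] K) (h : ∀ s : K, φ (xp (s • n) Y) = 0) :
    φ Y = 0 ∧ φ (ad n Y) = 0 ∧ φ (ad n (ad n Y)) = 0 := by
  have h0 := h 0
  have h1 := h 1
  have h2 := h (-1)
  have h3 := h 2
  have h4 := h (-2)
  simp only [xp, ex, ad_apply, mul_add, add_mul, mul_one, one_mul, mul_neg,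
    neg_mul, neg_neg, smul_mul_assoc, mul_smul_comm, map_add, map_sub, map_neg, map_smul,
    smul_eq_mul, mul_assoc] at h0 h1 h2 h3 h4 ⊢
  refine ⟨?_, ?_, ?_⟩
  · linear_combination h0
  · linear_combination (8 * (h1 - h2) - (h3 - h4)) / 12
  · linear_combination (16 * (h1 + h2) - (h3 + h4) - 30 * h0) / 12

theorem xp_ef (t : K) : xp (t • e0) f0 = (f0 + t • h0 - (t * t) • e0 : R K) := by
  simp only [xp, ex, h0_eq, mul_add, add_mul, mul_one, one_mul, mul_neg,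
    neg_mul, smul_mul_assoc, mul_smul_comm, mul_assoc, P011LE.ee, efe, smul_zero, add_zero,
    neg_zero]
  module

variable [Algebra.IsAlgebraic ℚ K] [IsAlgClosed K]

theorem span_orb (h2 : G2) (m : X ∈ gl K)
    (h : ∀ n ∈ gl K, Dg 1 n → ∀ t : K, tr (xp n (xp (t • e0) f0) * X) = 0) : X = 0 := by
  obtain ⟨φ, hφ⟩ : ∃ φ : R K →ₗ[K] K, ∀ Y, φ Y = tr (Y * X) :=
    ⟨tr ∘ₗ LinearMap.mulRight K X, fun _ => rfl⟩
  simp only [← hφ, xp_ef] at h
  have k (n) (a : n ∈ gl K) (b : Dg 1 n) : φ (xp n f0) = 0 ∧ φ (xp n h0) = 0 ∧ φ (xp n e0) = 0 := by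
    have h0 := h n a b 0
    have h1 := h n a b 1
    have h2 := h n a b (-1)
    simp only [xp, mul_add, add_mul, mul_sub, sub_mul, smul_mul_assoc, mul_smul_comm, map_add,
      map_sub, map_smul, smul_eq_mul] at h0 h1 h2 ⊢
    exact ⟨by linear_combination h0, by linear_combination (h1 - h2) / 2,
      by linear_combination h0 - (h1 + h2) / 2⟩
  have k1 (n) (a : n ∈ gl K) (b : Dg 1 n) :=
    xp_coef φ fun s => (k _ ((gl K).smul_mem s a) (b.smul s)).1
  have k2 (n) (a : n ∈ gl K) (b : Dg 1 n) :=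
    xp_coef φ fun s => (k _ ((gl K).smul_mem s a) (b.smul s)).2.1
  have k3 := (xp_coef φ fun s =>
    (k _ ((gl K).smul_mem s (zero_mem _)) (Dg.smul (dg K 1).zero_mem s)).2.2).1
  have k4 := (k1 0 (zero_mem _) (dg K 1).zero_mem).1
  have k5 := (k2 0 (zero_mem _) (dg K 1).zero_mem).1
  have t2 {y : R K} (a : y ∈ gl K) (b : Dg (-2) y) : ∃ c : K, y = c • f0 :=
    (dg_2 h2 (gl_tp a) (by simpa using b.tp)).imp fun c e => tp_inj (by rw [e, tp_smul, tp_f0])
  have t1 {y : R K} (b : Dg (-1) y) : y = ad (y * e0 - e0 * y) f0 := by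
    have z1 : f0 * y = 0 := (dg_f0.mul b).van (by omega)
    have z2 : y * f0 = 0 := (b.mul dg_f0).van (by omega)
    have : _ = _ := b
    simp only [ad_apply, h0_eq, mul_sub, sub_mul, mul_assoc, z1, z2, ← mul_assoc f0 y,
      ← mul_assoc y f0, mul_zero, zero_mul, Int.cast_neg, Int.cast_one] at this ⊢
    linear_combination (norm := module) this
  have d (i : ℤ) (y) (a : y ∈ gl K) (b : Dg i y) (c : i ≠ 0) : φ y = 0 := by
    by_cases h3 : 3 ≤ i ∨ i ≤ -3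
    · rw [b.van h3, map_zero]
    obtain rfl | rfl | rfl | rfl : i = 2 ∨ i = 1 ∨ i = -1 ∨ i = -2 := by omega
    · obtain ⟨c, rfl⟩ := dg_2 h2 a b
      rw [map_smul, k3, smul_zero]
    · have := (k2 y a b).2.1
      rwa [ad_apply, ← neg_sub, b, map_neg, neg_eq_zero, Int.cast_one, one_smul] at this
    · rw [t1 b]
      exact (k1 _ (gl_br a xt_e0.mem) (b.br dg_e0)).2.1
    · obtain ⟨c, rfl⟩ := t2 a b
      rw [map_smul, k4, smul_zero]
  have key (j : ℤ) (z) (a : z ∈ gl K) (b : Dg j z)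
      (c : ∀ y ∈ gl K, Dg (-j) y → φ (ad y z) = 0) : X * z = z * X := by
    refine (sub_eq_zero.1 (ndg (gl_br a m) fun y hy => ?_)).symm
    have := ad_ind (h := h0) (by simp [h0, io2_mul]) h0_gl (φ ∘ₗ ad z) (fun i y e f => ?_) hy
    · rw [LinearMap.comp_apply, hφ, ad_apply, sub_mul, map_sub, mul_assoc, mul_assoc,
        tr_comm z, tr_comm y] at this
      rw [sub_mul, map_sub, tr_comm (X * z), ← mul_assoc]
      linear_combination -this
    by_cases h3 : i = -j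
    · have := c y e (h3 ▸ f)
      rw [ad_apply, ← neg_sub, map_neg] at this
      exact neg_eq_zero.1 this
    · exact d _ _ (gl_br a e) (b.br f) (by omega)
  refine P011LM.p3 K X m (key _ _ xt_e0.mem dg_e0 fun y a b => ?_)
    (key _ _ xt_f0.mem dg_f0 fun y a b => ?_) fun z a b => key _ _ a b fun y e f => ?_
  · obtain ⟨c, rfl⟩ := t2 a b
    rw [ad_apply, smul_mul_assoc, mul_smul_comm, ← smul_sub, ← neg_sub, ← h0_eq, map_smul, map_neg,
      k5, neg_zero, smul_zero]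
  · obtain ⟨c, rfl⟩ := dg_2 h2 a b
    rw [ad_apply, smul_mul_assoc, mul_smul_comm, ← smul_sub, ← h0_eq, map_smul, k5, smul_zero]
  · rw [t1 b]
    have a' := gl_br a xt_e0.mem
    have b' : Dg 1 _ := b.br dg_e0
    generalize z * e0 - e0 * z = w at a' b'
    obtain ⟨c, e1⟩ := dg_2 h2 (gl_br e a') (Dg.br f b')
    have e2 : (2 : K) • ad y (ad w f0) = ad (y + w) (ad (y + w) f0) - ad y (ad y f0) -
        ad w (ad w f0) + ad (y * w - w * y) f0 := by
      simp only [ad_apply, mul_add, add_mul, mul_sub, sub_mul, mul_assoc]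
      module
    have := congrArg φ e2
    rw [map_add, map_sub, map_sub, (k1 _ e f).2.2, (k1 _ a' b').2.2,
      (k1 _ (add_mem e a') (Dg.add f b')).2.2, e1, ad_apply (c • e0), smul_mul_assoc, mul_smul_comm,
      ← smul_sub, ← h0_eq, map_smul, map_smul, k5] at this
    simpa using this

theorem cov (h2 : G2) (hp : EP) (h : Xt X) : ∃ c n t n' t', c ≠ 0 ∧ n ∈ gl K ∧ Dg 1 n ∧
    n' ∈ gl K ∧ Dg (-1) n' ∧ X = fam c n t n' t' := by
  have := mt (span_orb h2 h.mem) h.ne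
  push Not at this
  obtain ⟨n, a, b, t, e⟩ := this
  have c3 := cube b one_ne_zero
  rw [xp_eq c3, xp_eq (cube_e t), ← Ad_mul, tr_Ad'] at e
  have u := inv_mem (mul_mem (eu_mem c3 a.1) (eu_mem (cube_e t) ((gl K).smul_mem t xt_e0.mem).1))
  have x := (h.Ad u).tp
  have e1 := Ad_inv' (eu n c3 * eu _ (cube_e t)) X
  generalize Ad (eu n c3 * eu _ (cube_e t))⁻¹ X = Y at e x e1
  have c0 : tr (e0 * tp Y) / 6 ≠ 0 := div_ne_zero (by
    rwa [← tp_f0, ← tp_mul, tr_tp, tr_comm]) (by norm_num)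
  obtain ⟨n', a', t', b', e2⟩ := hp K _ (x.smul (inv_ne_zero c0)).mem (x.smul (inv_ne_zero c0)).sq
    (by rw [mul_smul_comm, smul_mul_assoc, h2 K _ x.mem, inv_smul_smul₀ c0])
  refine ⟨_, n, t, -tp n', -t', c0, a, b, neg_mem (gl_tp a'), b'.tp.neg, ?_⟩
  have e3 := congrArg tp e2
  rw [tp_xp, tp_xp, tp_smul, tp_smul, tp_tp, tp_e0, tp_f0, ← neg_smul] at e3
  rw [fam, ← e3, xp_eq c3, xp_eq (cube_e t), ← Ad_mul, Ad_smul, smul_inv_smul₀ c0, e1]

omit [Algebra.IsAlgebraic ℚ K] in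
theorem fam_orb {c t t' : K} {n' : R K} (c0 : c ≠ 0) (a : n ∈ gl K) (b : Dg 1 n) (a' : n' ∈ gl K)
    (b' : Dg (-1) n') : ∃ u ∈ SX K, Ad u e0 = fam c n t n' t' := by
  obtain ⟨r, rfl⟩ := IsAlgClosed.exists_eq_mul_self c
  have r0 : r ≠ 0 := left_ne_zero_of_mul c0
  have h3 : (h0 : R K) * h0 * h0 = h0 := by simp [h0, io2_mul]
  let v := cg h3 h0_gl.1 (Units.mk0 r r0)
  have e : Ad (EU v.1) e0 = (r * r) • e0 := Ad_eq.2 (by
    rw [EU_val, cg_val]
    simp only [cc, mul_add, add_mul, smul_mul_assoc, mul_smul_comm, mul_assoc h0 h0,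
      ← mul_assoc e0 h0, P011LP.h0_e0, P011LP.e0_h0, neg_mul, mul_one, one_mul, Units.val_mk0]
    match_scalars
    field_simp
    ring)
  refine ⟨eu n (cube b one_ne_zero) * eu _ (cube_e t) * eu n' (cube b' (by decide)) *
    eu _ (cube_f t') * EU v.1, mul_mem (mul_mem (mul_mem (mul_mem (eu_mem _ a.1)
    (eu_mem _ ((gl K).smul_mem t xt_e0.mem).1)) (eu_mem _ a'.1))
    (eu_mem _ ((gl K).smul_mem t' xt_f0.mem).1)) (EU_mem.2 ⟨1, one_ne_zero, fun x =>
      (P011LT.mem_SE.1 v.2 x).trans (one_mul _).symm⟩), ?_⟩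
  simp only [Ad_mul, e, Ad_smul]
  rfl

theorem orb (h2 : G2) (hp : EP) (h : Xt X) : ∃ u ∈ SX K, Ad u e0 = X := by
  obtain ⟨c, n, t, n', t', c0, a, b, a', b', rfl⟩ := cov h2 hp h
  exact fam_orb c0 a b a' b'

theorem cover (h2 : G2) (hp : EP) : COVER := fun K _ _ _ _ X => ⟨cov h2 hp, by
  rintro ⟨c, n, t, n', t', c0, a, b, a', b', rfl⟩
  obtain ⟨u, m, e⟩ := fam_orb (t := t) (t' := t') c0 a b a' b'
  exact e ▸ xt_e0.Ad m⟩

theorem conj (h2 : G2) (hp : EP) : CONJ := fun K _ _ _ _ X Y x y e => by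
  obtain ⟨u, m, rfl⟩ := orb h2 hp x
  have y' := y.Ad (inv_mem m)
  obtain ⟨n, a, t, b, e1⟩ := hp K _ y'.mem y'.sq (Ad_inj u (by rw [Ad_mul', Ad_mul', Ad_inv', e]))
  refine ⟨u * (eu n (cube b one_ne_zero) * eu _ (cube_e t)), mul_mem m (mul_mem (eu_mem _ a.1)
    (eu_mem _ ((gl K).smul_mem t xt_e0.mem).1)), ?_, ?_⟩
  · have z1 : n * e0 = 0 := (b.mul dg_e0).van (by omega)
    have z2 : e0 * n = 0 := (dg_e0.mul b).van (by omega)
    have e2 : xp (t • e0) e0 = (e0 : R K) := by simp [xp, ex, add_mul, mul_add, P011LE.ee]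
    have e3 : xp n e0 = (e0 : R K) := by
      simp [xp, ex, add_mul, mul_add, mul_assoc n n, ← mul_assoc e0 n, z1, z2]
    rw [Ad_mul, Ad_mul, ← xp_eq, ← xp_eq, e2, e3]
  · rw [Ad_mul, Ad_mul, ← xp_eq, ← xp_eq, ← e1, Ad_inv']

theorem xt (h2 : G2) (hp : EP) : XT := fun K _ _ _ _ X x y hy => by
  obtain ⟨u, m, rfl⟩ := orb h2 hp x
  rw [tr_Ad', ← Ad_smul, ← h2 K _ (gl_Ad (inv_mem m) hy), Ad_mul', Ad_mul', Ad_inv']

theorem cover' : COVER := cover P011LP.g2 P011LP.ep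

theorem conj' : CONJ := conj P011LP.g2 P011LP.ep

theorem xt' : XT := xt P011LP.g2 P011LP.ep

end Vale.Agent.P011LS
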