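import Vale.Agent.P011LE.Lie
import Vale.Agent.P011LI.Ext
import Mathlib.LinearAlgebra.BilinearForm.Orthogonal
import Mathlib.LinearAlgebra.Matrix.PosDef

/-!
The twisted Galois action on the Lie algebra, the trace form, and generalized inverses of extremal
elements.
-/

open Matrix
open scoped ComplexOrder

namespace Vale.Agent.P011LS

open P011L P011LD P011LE

variable {k K : Type} [Field k] [Field K] [Algebra k K] (o : (K ≃ₐ[k] K) →* ℤˣ)
  {p : (K ≃ₐ[k] K) → GL I K} {σ : K ≃ₐ[k] K}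

/-- The action of `σ` on the split Lie algebra, twisted by the diagram automorphism. -/
noncomputable def sa (σ : K ≃ₐ[k] K) (X : R K) : R K :=
  if o σ = 1 then cj (σ : K →+* K) X else -tp (cj (σ : K →+* K) X)

/-- The twisted action on the Lie algebra. -/
noncomputable def ta (p : (K ≃ₐ[k] K) → GL I K) (σ : K ≃ₐ[k] K) (X : R K) : R K :=
  Ad (EU (p σ)) (sa o σ X)

theorem sa_add (X Y : R K) : sa o σ (X + Y) = sa o σ X + sa o σ Y := by
  unfold sa
  split_ifs <;> simp [add_comm]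

theorem sa_smul (c : K) (X : R K) : sa o σ (c • X) = σ c • sa o σ X := by
  unfold sa
  split_ifs <;> simp [cj_smul]

theorem sa_br (X Y : R K) :
    sa o σ (X * Y - Y * X) = sa o σ X * sa o σ Y - sa o σ Y * sa o σ X := by
  unfold sa
  split_ifs <;> simp

theorem sa_xyx (X Y : R K) : sa o σ (X * Y * X) = sa o σ X * sa o σ Y * sa o σ X := by
  unfold sa
  split_ifs <;> simp [mul_assoc]

theorem sa_sq (X : R K) : sa o σ X * sa o σ X =
    if o σ = 1 then cj (σ : K →+* K) (X * X) else tp (cj (σ : K →+* K) (X * X)) := by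
  unfold sa
  split_ifs <;> simp

theorem sa_sa (σ τ : K ≃ₐ[k] K) (X : R K) : sa o (σ * τ) X = sa o σ (sa o τ X) := by
  unfold sa
  rw [map_mul]
  rcases Int.units_eq_one_or (o σ) with h | h <;> rcases Int.units_eq_one_or (o τ) with h' | h' <;>
    simp [h, h', cj_tp, cj_cj] <;> rfl

theorem sa_Ad (g : GL I K) (X : R K) : sa o σ (Ad (EU g) X) = Ad (EU (st o σ g)) (sa o σ X) := by
  have e : cj (σ : K →+* K) (Ad (EU g) X) =
      Ad (EU (GeneralLinearGroup.map (σ : K →+* K) g)) (cj (σ : K →+* K) X) := by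
    rw [Ad, Ad, map_mul, map_mul, ← map_inv, ← map_inv, ← map_inv, EU_val, EU_val, cj_E, cj_E]
    rfl
  unfold sa st
  split_ifs
  · exact e
  · rw [e, tp_Ad, Ad_neg, MonoidHom.comp_apply, EU_it]

theorem Ad_sc {g h : GL I K} {z : K} (e : g.1 = z • h.1) (X : R K) : Ad (EU g) X = Ad (EU h) X :=
  Ad_eq.2 (by rw [EU_val, e, map_smul, smul_mul_assoc, mul_smul_comm, ← EU_val, Ad_eq.1 rfl])

theorem sl_ta (h : PD o p) (Γ : Subgroup (K ≃ₐ[k] K)) : Sl Γ (ta o p) := by
  refine ⟨fun σ _ X Y => by rw [ta, sa_add, Ad_add]; rfl, fun σ _ c X => by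
    rw [ta, sa_smul, Ad_smul]; rfl, fun σ _ τ _ X => ?_, fun X => ?_⟩
  · obtain ⟨z, e⟩ := h.mul σ τ
    rw [ta, ta, ta, sa_Ad, ← Ad_mul, ← map_mul, Ad_sc e, sa_sa]
  · obtain ⟨S, hS⟩ := h.cont.and (Op.mat ⊤ (E.symm X))
    refine ⟨S, fun σ _ e => ?_⟩
    obtain ⟨⟨h1, c, h2⟩, h3⟩ := hS σ trivial e
    rw [ta, Ad_sc (h := 1) h2, map_one, Ad_one, sa, if_pos h1, cj_def]
    exact (congrArg E h3).trans (E.apply_symm_apply X)

theorem ta_br (X Y : R K) :
    ta o p σ (X * Y - Y * X) = ta o p σ X * ta o p σ Y - ta o p σ Y * ta o p σ X := by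
  simp only [ta, sa_br, Ad_sub, Ad_mul']

theorem ta_xyx (X Y : R K) : ta o p σ (X * Y * X) = ta o p σ X * ta o p σ Y * ta o p σ X := by
  simp only [ta, sa_xyx, Ad_mul']

theorem fixL_iff {X : Matrix I I K} : FixL o p σ X ↔ ta o p σ (E X) = E X := by
  rw [ta, Ad_eq, FixL, EU_val, ← map_mul, eq_comm, ← E.injective.eq_iff, map_mul, sa, cj_E, tp_E]
  split_ifs
  · rfl
  · rw [map_neg]
    rfl

theorem sg_add (f : K →+* K) (x y : J K) : sg f (x + y) = sg f x + sg f y :=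
  J_ext (Matrix.map_add _ (map_add f) _ _) (Matrix.map_add _ (map_add f) _ _)

theorem mem_of_orth {V : Type} [AddCommGroup V] [Module K V] [FiniteDimensional K V]
    (B : LinearMap.BilinForm K V) (r : B.IsRefl) (W : Submodule K V)
    (h0 : ∀ x ∈ W, (∀ y ∈ W, B x y = 0) → x = 0) (Φ : V →ₗ[K] V) (hΦ : ∀ y ∈ W, Φ y ∈ W) {x : V}
    (hx : x ∈ W) (h : ∀ z ∈ W, (∀ y ∈ W, B (Φ y) z = 0) → B z x = 0) : ∃ y ∈ W, Φ y = x := by
  have r' : (B.restrict W).IsRefl := fun x y => r x y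
  have : (⟨x, hx⟩ : W) ∈ (B.restrict W).orthogonal ((B.restrict W).orthogonal
      (LinearMap.range (Φ.restrict hΦ))) := fun z hz => h z z.2 fun y hy => hz _ ⟨⟨y, hy⟩, rfl⟩
  rw [LinearMap.BilinForm.orthogonal_orthogonal (r'.nondegenerate_iff_separatingLeft.2 fun x hx =>
    Subtype.ext (h0 x x.2 fun y hy => hx ⟨y, hy⟩)) r'] at this
  exact this.elim fun y e => ⟨y, y.2, congrArg Subtype.val e⟩

variable [CharZero K]

theorem T_sg (f : K →+* K) (x y z : J K) : T (sg f x) (sg f y) (sg f z) = f (T x y z) := by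
  rw [pol, pol]
  simp only [← sg_add, N_sg, map_add, map_sub]

theorem gl_cj (σ : K ≃ₐ[k] K) {X : R K} (h : X ∈ gl K) : cj (σ : K →+* K) X ∈ gl K := by
  have s (x : J K) : ∃ y, sg (σ : K →+* K) y = x := ⟨sg (σ⁻¹ : K ≃ₐ[k] K) x, co.injective (by
    rw [co_sg, co_sg]; exact funext fun _ => σ.apply_symm_apply _)⟩
  have e {X : R K} (a : Lie X) : Lie (cj (σ : K →+* K) X) := fun x y z => by
    obtain ⟨x, rfl⟩ := s x
    obtain ⟨y, rfl⟩ := s y
    obtain ⟨z, rfl⟩ := s z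
    simp only [cj_sg, T_sg, ← map_add, a x y z, map_zero]
  exact ⟨e h.1, cj_tp _ X ▸ e h.2⟩

theorem sa_gl {X : R K} (h : X ∈ gl K) : sa o σ X ∈ gl K := by
  unfold sa
  split_ifs
  · exact gl_cj σ h
  · exact neg_mem (gl_tp (gl_cj σ h))

theorem ta_gl [IsAlgClosed K] (hp : Sim (p σ)) {X : R K} (h : X ∈ gl K) : ta o p σ X ∈ gl K :=
  gl_Ad (EU_mem.2 hp) (sa_gl o h)

theorem Xt.xyx {X Y : R K} (h : Xt X) (a : Y ∈ gl K) : X * Y * X ∈ gl K := by
  have := (gl K).smul_mem (-2⁻¹) (gl_br h.mem (gl_br h.mem a))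
  have e : Y * X * X = 0 := by rw [mul_assoc, h.sq, mul_zero]
  simp only [mul_sub, sub_mul, ← mul_assoc, h.sq, zero_mul, e] at this
  convert this using 1
  module

section

variable [Algebra.IsAlgebraic ℚ K] [IsAlgClosed K]

/-- The trace form is nondegenerate. -/
theorem ndg {X : R K} (h : X ∈ gl K) (h0 : ∀ Y ∈ gl K, tr (X * Y) = 0) : X = 0 := by
  have : IsAlgClosure ℚ K := ⟨inferInstance, inferInstance⟩
  let ι : K →ₐ[ℚ] ℂ := IsAlgClosed.lift
  let _ : Algebra K ℂ := ι.toRingHom.toAlgebra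
  have : IsScalarTower ℚ K ℂ := IsScalarTower.of_algebraMap_eq fun c => (ι.commutes c).symm
  let c : ℂ ≃ₐ[ℚ] ℂ := AlgEquiv.ofRingEquiv (f := starRingAut) fun x => map_ratCast _ x
  have e (x : K) : ι (c.restrictNormal K x) = star (ι x) := c.restrictNormal_commutes K x
  have h1 := congrArg ι (h0 _ (gl_tp (gl_cj (c.restrictNormal K) h)))
  obtain ⟨X, rfl⟩ := E.surjective X
  rw [cj_E, tp_E, ← map_mul, tr_def, AlgEquiv.symm_apply_apply, map_zero] at h1
  have h2 : (X.map ι * (X.map ι)ᴴ).trace = 0 := by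
    rw [← h1]
    simp [trace, mul_apply, e]
  rw [map_eq_zero_iff _ E.injective]
  exact Matrix.ext fun i j => ι.injective ((congrFun (congrFun
    (trace_mul_conjTranspose_self_eq_zero_iff.1 h2) i) j).trans (map_zero ι).symm)

/-- Extremal elements have generalized inverses. -/
theorem ginv {X : R K} (h : Xt X) : ∃ y ∈ gl K, X * y * X = X := by
  have : FiniteDimensional K (R K) := Module.Finite.equiv E.toLinearEquiv
  refine mem_of_orth ((LinearMap.mul K (R K)).compr₂ tr) (fun x y e => (tr_comm _ _).trans e) (gl K)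
    (fun x => ndg) (LinearMap.mulRight K X ∘ₗ LinearMap.mulLeft K X) (fun y => Xt.xyx h) h.mem
    fun z m hz => ?_
  have e : X * z * X = 0 := ndg (Xt.xyx h m) fun y hy => by
    have : tr (X * y * X * z) = 0 := hz y hy
    rw [← this, mul_assoc _ X y, tr_comm, mul_assoc _ X z]
  refine (Matrix.isNilpotent_trace_of_isNilpotent (M := E.symm (z * X)) ⟨2, ?_⟩).eq_zero
  rw [← map_pow, sq, mul_assoc, ← mul_assoc X, e, mul_zero, map_zero]

/-- Rational extremal elements have rational generalized inverses. -/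
theorem ginv_fix [Algebra.IsAlgebraic k K] {Γ : Subgroup (K ≃ₐ[k] K)} (hp : DD o p) {X : R K}
    (h : Xt X) (hX : ∀ σ ∈ Γ, ta o p σ X = X) :
    ∃ y ∈ gl K, X * y * X = X ∧ ∀ σ ∈ Γ, ta o p σ y = y := by
  obtain ⟨y, m, e⟩ := ginv h
  have s := sl_ta o hp.pd Γ
  let Φ : R K →ₗ[K] R K := LinearMap.mulRight K X ∘ₗ LinearMap.mulLeft K X
  have := s.mem_span (gl K ⊓ (K ∙ X).comap Φ) (fun σ a w hw => ⟨ta_gl o (hp.sim σ) hw.1, ?_⟩)
    (v := y) ⟨m, Submodule.mem_span_singleton.2 ⟨1, (one_smul _ _).trans e.symm⟩⟩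
  · by_contra hc
    refine h.ne (e ▸ (Submodule.span_le (p := LinearMap.ker Φ)).2 (fun w hw => ?_) this)
    obtain ⟨c, e1⟩ := Submodule.mem_span_singleton.1 hw.2.2
    have e2 : c • X = X * w * X := e1
    by_contra e3
    have c0 : c ≠ 0 := fun e4 => e3 (e1.symm.trans (by rw [e4, zero_smul]))
    refine hc ⟨c⁻¹ • w, (gl K).smul_mem _ hw.2.1, by
      rw [mul_smul_comm, smul_mul_assoc, ← e2, inv_smul_smul₀ c0], s.smul_mem (fun σ a => ?_) hw.1⟩
    have := congrArg (ta o p σ) e2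
    rw [s.smul σ a, ta_xyx, hX σ a, hw.1 σ a, ← e2] at this
    rw [map_inv₀, smul_left_injective K h.ne this]
  · obtain ⟨c, e1⟩ := Submodule.mem_span_singleton.1 hw.2
    have e2 : ta o p σ (c • X) = ta o p σ (X * w * X) := congrArg _ e1
    rw [s.smul σ a, ta_xyx, hX σ a] at e2
    exact Submodule.mem_span_singleton.2 ⟨_, e2⟩

end

end Vale.Agent.P011LS
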