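import Vale.Agent.P011LS.U
import Vale.Agent.P011LX.Defs

/-!
The interfaces of the inner case.
-/

open Matrix

namespace Vale.Agent.P011LS

open P011L P011LD P011LE P011LR P011.D4 P011.E6

/-- SING: a rational singular element. -/
def SING : Prop :=
  ∀ (k K : Type) [Field k] [NumberField k] [Field K] [Algebra k K] [IsAlgClosure k K] (a b c : Kˣ)
    (Γ : Subgroup (K ≃ₐ[k] K)) (p : (K ≃ₐ[k] K) → Alb a b c → Alb a b c), Op ⊤ (· ∈ Γ) → NA Γ p →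
    ∃ x ∈ Fx Γ p, x ≠ 0 ∧ Alb.adj x = 0

/-- CYCA: the action which permutes the idempotents cyclically is the standard one. -/
def CYCA : Prop :=
  ∀ (k K : Type) [Field k] [NumberField k] [Field K] [Algebra k K] [IsAlgClosure k K] (a b c : Kˣ)
    (π : (K ≃ₐ[k] K) →* Equiv.Perm (Fin 3)) (p : (K ≃ₐ[k] K) → Alb a b c → Alb a b c), NA ⊤ p →
    (∀ σ i, p σ (ee i) = ee (π σ i)) → (∀ σ, π σ ^ 3 = 1) →
    ∃ (a' b' c' : kˣ) (g : AlbL K a' b' c' ≃ₗ[K] Alb a b c) (μ : K), μ ≠ 0 ∧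
      (∀ x, Alb.cub (g x) = μ * Alb.cub x) ∧ (∀ i, ∃ d : K, g (ee i) = d • ee i) ∧
      (∀ σ, π σ = 1 → ∀ x, p σ (g x) = g (amap σ x)) ∧
      ∀ σ, π σ = finRotate 3 → ∀ x, p σ (g x) = g (P011.E6H.ph σ 1 x)

/-- The normal form in the inner case. -/
structure INF {k K : Type} [Field k] [Field K] [Algebra k K] (p : (K ≃ₐ[k] K) → GL I K)
    (π : (K ≃ₐ[k] K) →* Equiv.Perm (Fin 3)) (a b c : kˣ) (Ψ : (I → K) ≃ₗ[K] AlbL K a b c) :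
    Prop where
  cub : ∃ μ : K, μ ≠ 0 ∧ ∀ x, Alb.cub (Ψ x) = μ * cub x
  op : Op ⊤ fun σ => π σ = 1
  cyc : ∀ σ, π σ ^ 3 = 1
  gal : ∀ σ, π σ = 1 → ∃ μ : K, ∀ x, Ψ ((p σ).1 *ᵥ (σ ∘ x)) = μ • amap σ (Ψ x)
  ph : π = 1 ∨ ¬Spl 1 p ∧ ∃ (r : K ≃ₐ[k] K) (e : Kˣ), π r = finRotate 3 ∧ (∀ σ : K ≃ₐ[k] K, σ e = e) ∧
    ∃ μ : K, ∀ x, Ψ ((p r).1 *ᵥ (r ∘ x)) = μ • P011.E6H.ph r e (Ψ x)

/-- NF1: inner descent data have a normal form. -/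
def NF1 : Prop :=
  ∀ (k K : Type) [Field k] [NumberField k] [Field K] [Algebra k K] [IsAlgClosure k K]
    (p : (K ≃ₐ[k] K) → GL I K), P011LE.DD 1 p → ∃ π a b c Ψ, INF p π a b c Ψ

end Vale.Agent.P011LS
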