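import Vale.Agent.P011L.IF
import Vale.Agent.P011LD.H90

/-!
Descent data for the twisted actions on the group of type `E₆`.
-/

open Matrix

namespace Vale.Agent.P011LS

open Vale.Agent.P011L Vale.Agent.P011LD

/-- The index set of the coordinates. -/
abbrev I3 : Type := Fin 3 × Fin 3 × Fin 3

variable {k K : Type} [Field k] [Field K] [Algebra k K] {n : Type} [Fintype n] [DecidableEq n]

/-- The inverse of the transposed matrix. -/
def it : GL n K →* GL n K where
  toFun x := ⟨(x⁻¹).1ᵀ, x.1ᵀ, by rw [← transpose_mul, Units.mul_inv, transpose_one],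
    by rw [← transpose_mul, Units.inv_mul, transpose_one]⟩
  map_one' := Units.ext (by simp)
  map_mul' x y := Units.ext (by simp [transpose_mul])

/-- The automorphism applied to the entries. -/
def gm (σ : K ≃ₐ[k] K) : GL n K →* GL n K := GeneralLinearGroup.map (σ : K →+* K)

/-- The standard action of the inner (`o σ = 1`) and the outer automorphisms. -/
def st (o : (K ≃ₐ[k] K) →* ℤˣ) (σ : K ≃ₐ[k] K) : GL n K →* GL n K :=
  if o σ = 1 then gm σ else it.comp (gm σ)

/-- Descent data. -/
structure DD (T : Tw k (SE K)) where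
  o : (K ≃ₐ[k] K) →* ℤˣ
  p : (K ≃ₐ[k] K) → GL I3 K
  sim : ∀ σ, ∃ l : K, l ≠ 0 ∧ ∀ x, cub ((p σ).1 *ᵥ x) = l * cub x
  mul : ∀ σ τ, ∃ z : K, z ≠ 0 ∧ (p σ * st o σ (p τ)).1 = z • (p (σ * τ)).1
  cont : Op ⊤ fun σ => o σ = 1 ∧ p σ = 1
  act : ∀ σ g, (T.a σ g).1 = p σ * st o σ g.1 * (p σ)⁻¹

/-- The restriction of a twisted action to a finite extension. -/
noncomputable def res {H : Subgroup (GL n K)} (T : Tw k H) (F : IntermediateField k K)
    [Algebra.IsAlgebraic k K] : Tw F H where
  a := T.a.comp (AlgEquiv.restrictScalarsHom k)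
  pol σ := T.pol (σ.restrictScalars k)
  cont := by
    obtain ⟨E, h1, h2⟩ := T.cont
    let b := Module.finBasis k E
    refine ⟨IntermediateField.adjoin F (Set.range fun i => (b i).1), ?_, fun σ h g => ?_⟩
    · exact IntermediateField.finiteDimensional_adjoin fun x _ =>
        (Algebra.IsIntegral.isIntegral (R := k) x).tower_top
    · refine h2 (σ.restrictScalars k) (fun x hx => ?_) g
      have := congrArg Subtype.val (b.sum_repr ⟨x, hx⟩)
      simp only [IntermediateField.coe_sum, IntermediateField.coe_smul] at this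
      rw [← this, map_sum]
      exact Finset.sum_congr rfl fun i _ => by
        rw [map_smul]
        exact congrArg _ (h _ (IntermediateField.subset_adjoin _ _ ⟨i, rfl⟩))

/-- The restriction of descent data. -/
noncomputable def DD.res {T : Tw k (SE K)} (D : DD T) (F : IntermediateField k K)
    [Algebra.IsAlgebraic k K] : DD (res T F) where
  o := D.o.comp (AlgEquiv.restrictScalarsHom k)
  p σ := D.p (σ.restrictScalars k)
  sim _ := D.sim _
  mul σ τ := D.mul (σ.restrictScalars k) (τ.restrictScalars k)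
  cont := D.cont.elim fun S hS => ⟨S, fun σ _ h => hS (σ.restrictScalars k) trivial h⟩
  act σ := D.act (σ.restrictScalars k)

/-- GLUE: twisted actions have descent data. -/
def GLUE : Prop :=
  ∀ (k K : Type) [Field k] [Field K] [Algebra k K] [IsAlgClosed K] [CharZero K]
    (T : Tw k (SE K)), ∃ D : DD T, ∀ σ, D.p σ ∈ SE K

/-- INN: the inner forms. -/
def INN : Prop :=
  ∀ (k K : Type) [Field k] [NumberField k] [Field K] [Algebra k K] [IsAlgClosure k K]
    (T : Tw k (SE K)) (D : DD T), (∀ σ, D.o σ = 1) → T.Ani → PSimple T.fix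

/-- OUT: the outer forms. -/
def OUT : Prop :=
  ∀ (k K : Type) [Field k] [NumberField k] [Field K] [Algebra k K] [IsAlgClosure k K]
    (T : Tw k (SE K)) (D : DD T), (∃ σ, D.o σ ≠ 1) → T.Ani → PSimple T.fix

theorem he_of (hg : GLUE) (hi : INN) (ho : OUT) : HE := fun k K _ _ _ _ _ T ha => by
  have := IsAlgClosure.isAlgClosed k (K := K)
  have : CharZero K := charZero_of_injective_algebraMap (algebraMap k K).injective
  obtain ⟨D, -⟩ := hg k K T
  by_cases h : ∀ σ, D.o σ = 1
  · exact hi k K T D h ha
  · exact ho k K T D (not_forall.1 h) ha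

end Vale.Agent.P011LS
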