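import Vale.Agent.P011LS.He
import Vale.Agent.P011LS.Cov
import Vale.Agent.P011LX.Oe
import Vale.Agent.P011LX.Brg
import Vale.Agent.P011LX.Dict
import Vale.Agent.P011LY.Main
import Vale.Agent.P011LU.Tor
import Vale.Agent.P011LM.CE
import Vale.Agent.P011LI.Main

/-!
The groups of type `E₆`.
-/

namespace Vale.Agent.P011LS

open P011L P011LE

theorem he_fin (h1 : P011LX.ISO2) (h2 : P011LX.PAIR) (h3 : NFB) : HE :=
  he P011LM.ce P011LI.ind ae (P011LX.oe (ext1' P011LI.ind) h1 h2 P011LI.ind h3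
    (P011LX.brg P011LY.anfb P011LX.dict) P011LU.tor ae)

end Vale.Agent.P011LS
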