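import Vale.Agent.P011LS.IF

/-!
A frame whose lines are permuted by the Galois group.
-/

open Matrix

namespace Vale.Agent.P011LS

open P011LD P011LG P011LR P011.D4 P011.E6 P011.E6.Alb

variable {k K : Type} [Field k] [Field K] [Algebra k K] {a b c a' b' c' a'' b'' c'' : Kˣ}
  {σ τ : K ≃ₐ[k] K} {l l' : K}

theorem SS.comp {f : Alb a' b' c' → Alb a'' b'' c''} {g : Alb a b c → Alb a' b' c'} (h : SS σ l f)
    (h' : SS τ l' g) : SS (σ * τ) (l * σ l') fun x => f (g x) :=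
  ⟨fun x y => by rw [h'.add, h.add], fun t x => by rw [h'.smul, h.smul]; rfl, h.bij.comp h'.bij,
    mul_ne_zero h.ne ((map_ne_zero σ).2 h'.ne), fun x => by
      rw [h.cub, h'.cub, map_mul, mul_assoc]; rfl⟩

theorem SS.of_sim (g : Alb a b c ≃ₗ[K] Alb a' b' c') (h0 : l ≠ 0)
    (h : ∀ x, Alb.cub (g x) = l * Alb.cub x) : SS (1 : K ≃ₐ[k] K) l g := ⟨g.map_add, g.map_smul, g.bijective, h0, h⟩

theorem SS.scal {f : Alb a b c → Alb a' b' c'} (h : SS σ l f) {t : K} (ht : t ≠ 0) :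
    SS σ (t ^ 3 * l) fun x => t • f x :=
  ⟨fun x y => by rw [h.add, smul_add], fun s x => by rw [h.smul, smul_comm],
    (MulAction.bijective (Units.mk0 t ht)).comp h.bij, mul_ne_zero (pow_ne_zero 3 ht) h.ne,
    fun x => by rw [cub_smul, h.cub, mul_assoc]⟩

/-- The linear equivalence. -/
noncomputable def SS.eqv {f : Alb a b c → Alb a' b' c'} (h : SS (1 : K ≃ₐ[k] K) l f) :
    Alb a b c ≃ₗ[K] Alb a' b' c' := LinearEquiv.ofBijective ⟨⟨f, h.add⟩, h.smul⟩ h.bij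

variable [CharZero K]

/-- The split model. -/
abbrev A1 (K : Type) [Field K] : Type := Alb (1 : Kˣ) 1 1

/-- The standard action. -/
def sd (σ : K ≃ₐ[k] K) (x : A1 K) : A1 K := Psi 1 1 1 1 (σ ∘ (Psi 1 1 1 1).symm x)

theorem sd_Psi (x : P011LE.I → K) : sd σ (Psi 1 1 1 1 x) = Psi 1 1 1 1 (σ ∘ x) := by
  rw [sd, LinearEquiv.symm_apply_apply]

theorem sd_sd (x : A1 K) : sd σ (sd τ x) = sd (σ * τ) x := sd_Psi _

theorem sd_one (x : A1 K) : sd (1 : K ≃ₐ[k] K) x = x := (Psi 1 1 1 1).apply_symm_apply x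

theorem ss_sd : SS σ 1 (sd σ : A1 K → A1 K) := by
  refine ⟨fun x y => ?_, fun t x => ?_, Function.bijective_iff_has_inverse.2 ⟨sd σ⁻¹, fun x => ?_,
    fun x => ?_⟩, one_ne_zero, fun x => ?_⟩
  · rw [sd, sd, sd, ← map_add, map_add]
    exact congrArg _ (funext fun i => map_add σ _ _)
  · rw [sd, sd, ← map_smul, map_smul]
    exact congrArg _ (funext fun i => map_mul σ _ _)
  · rw [sd_sd, inv_mul_cancel, sd_one]
  · rw [sd_sd, mul_inv_cancel, sd_one]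
  · obtain ⟨y, rfl⟩ := (Psi 1 1 1 1).surjective x
    rw [sd_Psi, cub_Psi _ _ _ _ (mul_one 1).symm, cub_Psi _ _ _ _ (mul_one 1).symm, one_mul]
    exact P011LT.cub_map (σ : K →+* K) y

theorem tf_sd (x y : A1 K) : tf (sd σ x) (sd σ y) = σ (tf x y) := by
  obtain ⟨x, rfl⟩ := (Psi 1 1 1 1).surjective x
  obtain ⟨y, rfl⟩ := (Psi 1 1 1 1).surjective y
  rw [sd_Psi, sd_Psi, tf_Psi _ _ _ _ (mul_one 1).symm, tf_Psi _ _ _ _ (mul_one 1).symm]
  simp [dotProduct]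

theorem exists_dp (hsq : ∀ t : K, IsSquare t) {f : A1 K → A1 K} (h : SS σ 1 f) :
    ∃ f', DP σ f f' := by
  have h1 := h.comp (ss_sd (σ := σ⁻¹))
  rw [mul_inv_cancel, map_one, mul_one] at h1
  obtain ⟨g, h2, h3⟩ := exists_dual hsq (g := h1.eqv) fun x => (h1.cub x).trans (one_mul _)
  have h4 := (SS.of_inv (k := k) h2).comp (ss_sd (σ := σ))
  rw [one_mul, map_one, mul_one] at h4
  refine ⟨_, h, h4, fun x y => ?_⟩
  rw [← tf_sd, ← h3 (sd σ x)]
  show _ = tf (f (sd σ⁻¹ (sd σ x))) _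
  rw [sd_sd, inv_mul_cancel, sd_one]

section

variable {V : Type} [AddCommGroup V] [Module K V] {F G : V → A1 K}

/-- Polynomial maps. -/
def VP (F : V → A1 K) : Prop := ∀ l : A1 K →ₗ[K] K, LP fun v => l (F v)

theorem VP.bil (hF : VP F) (hG : VP G) (B : A1 K →ₗ[K] A1 K →ₗ[K] K) :
    LP fun v => B (F v) (G v) := by
  let bs := (Pi.basisFun K P011LE.I).map (Psi 1 1 1 1)
  have : (fun v => B (F v) (G v)) = fun v => ∑ i, bs.coord i (F v) * B (bs i) (G v) :=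
    funext fun v => by
      conv_lhs => rw [← bs.sum_repr (F v), map_sum, LinearMap.sum_apply]
      simp
  rw [this]
  exact LP.sum _ fun i _ => (hF _).mul (hG _)

theorem VP.tf (hF : VP F) (hG : VP G) : LP fun v => tf (F v) (G v) :=
  hF.bil hG (LinearMap.mk₂ K Alb.tf tf_add_left tf_smul_left tf_add_right tf_smul_right)

theorem VP.cross (hF : VP F) (hG : VP G) : VP fun v => cross (F v) (G v) := fun l =>
  hF.bil hG ((LinearMap.mk₂ K Alb.cross cross_add_left cross_smul_left cross_add_right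
    cross_smul_right).compr₂ l)

omit [CharZero K] in
theorem VP.const (y : A1 K) : VP fun _ : V => y := fun _ => LP.const _

theorem VP.U (hF : VP F) (y : A1 K) : VP fun v => U (F v) y := fun l => by
  have : (fun v => l (P011LS.U (F v) y)) = fun v => Alb.tf (F v) y * l (F v) +
      (-2⁻¹) * l (Alb.cross (Alb.cross (F v) (F v)) y) := funext fun v => by
    simp [P011LS.U, Alb.cross_self, cross_smul_left]
  rw [this]
  exact ((hF.tf (VP.const y)).mul (hF l)).add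
    ((LP.const _).mul ((hF.cross hF).cross (VP.const y) l))

theorem VP.cub (hF : VP F) : LP fun v => cub (F v) := by
  have : (fun v => Alb.cub (F v)) = fun v => 6⁻¹ * Alb.tf (Alb.cross (F v) (F v)) (F v) :=
    funext fun v => by
      rw [Alb.cross_self, tf_smul_left, tf_adj_self]
      ring
  rw [this]
  exact (LP.const _).mul ((hF.cross hF).tf hF)

omit [CharZero K] in
theorem VP.proj (j : Fin 3) : VP fun w : Fin 3 → A1 K => w j := fun l =>
  LP.lin (l ∘ₗ LinearMap.proj (φ := fun _ => A1 K) j)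

end

/-- Projective actions with a monomial companion. -/
structure PF (π : (K ≃ₐ[k] K) →* Equiv.Perm (Fin 3)) (P : (K ≃ₐ[k] K) → Alb a b c → Alb a b c)
    (l : (K ≃ₐ[k] K) → K) (m : (K ≃ₐ[k] K) → Fin 3 → K) : Prop where
  ss : ∀ σ, SS σ (l σ) (P σ)
  ne : ∀ σ j, m σ j ≠ 0
  mul : ∀ σ τ, ∃ z : K, (∀ x, P σ (P τ x) = z • P (σ * τ) x) ∧
    ∀ j, m σ (π τ j) * σ (m τ j) = z * m (σ * τ) j
  cont : ∀ x, Op ⊤ fun σ => π σ = 1 ∧ ∃ t : K, P σ x = t • x ∧ ∀ j, m σ j = t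

variable {π : (K ≃ₐ[k] K) →* Equiv.Perm (Fin 3)} {P : (K ≃ₐ[k] K) → Alb a b c → Alb a b c}
  {l : (K ≃ₐ[k] K) → K} {m : (K ≃ₐ[k] K) → Fin 3 → K}

omit [CharZero K] in
theorem PF.tw (h : PF π P l m) {θ : Fin 3 → K} (hθ : ∀ j, θ j ≠ 0) {η : K} (hη : η ≠ 0) :
    PF π P l fun σ j => m σ j * θ (π σ j) / σ (θ j) * (η / σ η) := by
  have h0 : ∀ (σ : K ≃ₐ[k] K) j, σ (θ j) ≠ 0 := fun σ j => (map_ne_zero σ).2 (hθ j)
  have h1 : ∀ σ : K ≃ₐ[k] K, σ η ≠ 0 := fun σ => (map_ne_zero σ).2 hη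
  refine ⟨h.ss, fun σ j => mul_ne_zero (div_ne_zero (mul_ne_zero (h.ne _ _) (hθ _)) (h0 _ _))
    (div_ne_zero hη (h1 _)), fun σ τ => (h.mul σ τ).imp fun z e => ⟨e.1, fun j => ?_⟩,
    fun x => (((h.cont x).and (Op.vec ⊤ θ)).and (Op.fix ⊤ η)).imp
      fun σ _ ⟨⟨⟨e1, t, e2, e3⟩, e4⟩, e5⟩ => ⟨e1, t, e2, fun j => ?_⟩⟩
  · have := h0 σ (π τ j)
    have := h0 (σ * τ) j
    have := h1 σ
    have := h1 (σ * τ)
    simp only [map_mul, map_div₀, Equiv.Perm.mul_apply, AlgEquiv.mul_apply] at *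
    field_simp
    linear_combination θ (π σ (π τ j)) * e.2 j
  · rw [e1, e3, e5, show σ (θ j) = θ j from congrFun e4 j, Equiv.Perm.one_apply,
      mul_div_assoc, div_self (hθ j), div_self hη, mul_one, mul_one]

omit [CharZero K] in
theorem PF.norm [IsAlgClosure k K] [Infinite k] (h : PF π P l m) : ∃ θ : Fin 3 → K,
    (∀ j, θ j ≠ 0) ∧ ∀ σ j, (m σ j * θ (π σ j) / σ (θ j)) ^ 3 = l σ := by
  have := IsAlgClosure.isAlgClosed k (K := K)
  have h1 : cub (dia 1 1 1 : Alb a b c) = 1 := by rw [cub_dia, mul_one, mul_one]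
  obtain ⟨β, h2, h3⟩ := h90_perm (Γ := ⊤) π (fun σ _ τ _ => map_mul π σ τ)
    (fun σ j => l σ / m σ ((π σ).symm j) ^ 3) (fun σ _ τ _ j => by
      obtain ⟨z, e1, e2⟩ := h.mul σ τ
      have e3 := congrArg cub (e1 (dia 1 1 1))
      have e4 := e2 ((π τ).symm ((π σ).symm j))
      rw [(h.ss σ).cub, (h.ss τ).cub, cub_smul, (h.ss _).cub, h1] at e3
      rw [Equiv.apply_symm_apply] at e4
      have e5 : (π (σ * τ)).symm j = (π τ).symm ((π σ).symm j) := by rw [map_mul]; rfl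
      have e6 := h.ne σ ((π σ).symm j)
      have e7 := (map_ne_zero σ).2 (h.ne τ ((π τ).symm ((π σ).symm j)))
      have e8 := h.ne (σ * τ) ((π τ).symm ((π σ).symm j))
      simp only [map_one, mul_one] at e3
      rw [e5, map_div₀, map_pow]
      field_simp
      rw [mul_assoc, ← mul_pow, e4]
      linear_combination (-m (σ * τ) ((π τ).symm ((π σ).symm j)) ^ 3) * e3)
    ((h.cont (dia 1 1 1)).imp fun σ _ ⟨e1, t, e2, e3⟩ => ⟨e1, fun j => by
      have e4 := (h.ss σ).cub (dia 1 1 1)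
      rw [e2, cub_smul, h1, map_one, mul_one, mul_one] at e4
      rw [← e4, ← e3 ((π σ).symm j), div_self (pow_ne_zero 3 (h.ne _ _))]⟩)
  choose θ hθ using fun j => IsAlgClosed.exists_pow_nat_eq (β j) three_pos
  have h4 : ∀ j, θ j ≠ 0 := fun j e => h2 j (by rw [← hθ, e, zero_pow three_ne_zero])
  refine ⟨θ, h4, fun σ j => ?_⟩
  have e := h3 σ trivial (π σ j)
  have e1 := h.ne σ j
  have e2 := (map_ne_zero σ).2 (h2 j)
  simp only [Equiv.symm_apply_apply] at e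
  rw [div_pow, mul_pow, ← map_pow, hθ, hθ, ← e]
  field_simp

theorem PF.frame [NumberField k] [IsAlgClosure k K] (hs : SING) {P : (K ≃ₐ[k] K) → A1 K → A1 K}
    (h : PF π P l m) (h3 : ∀ σ j, m σ j ^ 3 = l σ) : ∃ X : Fin 3 → A1 K, (∀ j, adj (X j) = 0) ∧
      tf (cross (X 0) (X 1)) (X 2) ≠ 0 ∧ ∀ σ j, P σ (X j) = m σ j • X (π σ j) := by
  classical
  have := IsAlgClosure.isAlgClosed k (K := K)
  let G : (K ≃ₐ[k] K) → Fin 3 → A1 K → A1 K := fun σ j x => (m σ j)⁻¹ • P σ x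
  have g1 : ∀ σ j, SS σ 1 (G σ j) := fun σ j => by
    have := (h.ss σ).scal (inv_ne_zero (h.ne σ j))
    rwa [inv_pow, h3, inv_mul_cancel₀ (h.ss σ).ne] at this
  have g2 : ∀ σ τ j x, G σ (π τ j) (G τ j x) = G (σ * τ) j x := fun σ τ j x => by
    obtain ⟨z, e1, e2⟩ := h.mul σ τ
    have := h.ne σ (π τ j)
    have := (map_ne_zero σ).2 (h.ne τ j)
    have := h.ne (σ * τ) j
    simp only [G, (h.ss σ).smul, e1, smul_smul, map_inv₀]
    congr 1
    field_simp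
    linear_combination -e2 j
  have g3 : ∀ x, Op ⊤ fun σ => π σ = 1 ∧ ∀ j, G σ j x = x := fun x =>
    (h.cont x).imp fun σ _ ⟨e1, t, e2, e3⟩ => ⟨e1, fun j => by
      simp only [G, e2, ← e3 j, smul_smul, inv_mul_cancel₀ (h.ne σ j), one_smul]⟩
  have S : Sl ⊤ fun σ (w : Fin 3 → A1 K) j => G σ ((π σ).symm j) (w ((π σ).symm j)) := by
    refine ⟨fun σ _ v w => funext fun j => (g1 _ _).add _ _,
      fun σ _ t w => funext fun j => (g1 _ _).smul _ _, fun σ _ τ _ w => funext fun j => ?_,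
      fun w => (Op.all fun j => g3 (w j)).imp fun σ _ e => funext fun j => ?_⟩
    · rw [← g2, map_mul]
      exact congrArg (fun i => G σ i _) ((π τ).apply_symm_apply _)
    · exact (e _).2 _ |>.trans (by rw [(e 0).1]; rfl)
  have S1 : ∀ {w}, w ∈ Fx ⊤ (fun σ (w : Fin 3 → A1 K) j =>
      G σ ((π σ).symm j) (w ((π σ).symm j))) → ∀ σ j, G σ j (w j) = w (π σ j) := fun hw σ j => by
    simpa using congrFun (hw σ trivial) (π σ j)
  obtain ⟨x, x1, x2, x3⟩ : ∃ x : Fin 3 → A1 K, (∀ j, x j ≠ 0) ∧ (∀ j, adj (x j) = 0) ∧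
      ∀ σ j, G σ j (x j) = x (π σ j) := by
    choose y y1 y2 y3 using fun j => hs k K 1 1 1 ((MulAction.stabilizer _ j).comap π)
      (fun σ => G σ j) ((g3 0).imp fun σ _ e => by simp [e.1])
      ⟨⟨fun σ _ => (g1 σ j).add, fun σ _ => (g1 σ j).smul, fun σ _ τ t v => by
        rw [← g2, show π τ j = j from t], fun v => (g3 v).elim fun T e => ⟨T, fun σ _ t => (e σ trivial t).2 j⟩⟩,
        fun σ _ v => by rw [(g1 σ j).cub, one_mul]⟩
    let r : Fin 3 → Fin 3 := fun j => Classical.epsilon fun i => ∃ τ, π τ i = j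
    choose s hs using fun j => Classical.epsilon_spec (p := fun i => ∃ τ, π τ i = j)
      ⟨j, 1, by simp⟩
    refine ⟨fun j => G (s j) (r j) (y (r j)), fun j => (g1 _ _).ne_zero (y2 _),
      fun j => (g1 _ _).adj_zero (y3 _), fun σ j => ?_⟩
    have e : r (π σ j) = r j := congrArg Classical.epsilon (funext fun i => propext
      ⟨fun ⟨τ, e⟩ => ⟨σ⁻¹ * τ, by simp [e]⟩, fun ⟨τ, e⟩ => ⟨σ * τ, by simp [e]⟩⟩)
    have e1 : π ((s (π σ j))⁻¹ * (σ * s j)) (r j) = r j := by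
      rw [map_mul, map_mul, map_inv, Equiv.Perm.mul_apply, Equiv.Perm.mul_apply, hs,
        Equiv.Perm.inv_eq_iff_eq, ← e, hs]
    have e2 := g2 (s (π σ j)) ((s (π σ j))⁻¹ * (σ * s j)) (r j) (y (r j))
    have e3 : G _ _ _ = _ := y1 _ _ e1
    rw [e1, e3, mul_inv_cancel_left, ← g2, hs] at e2
    beta_reduce
    rw [e, e2]
  obtain ⟨v, v1, v2⟩ := S.dn.dens Finset.univ (f := fun j v => cub (v j))
    (fun j _ => (VP.proj j).cub) fun j _ => ⟨fun _ => dia 1 1 1, by simp [cub_dia]⟩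
  have y1 : ∀ j, adj (U (adj (v j)) (x j)) = 0 := fun j => adj_U _ (x2 j)
  obtain ⟨w, w1, w2⟩ := S.dn.den ((((VP.proj 0).U _).cross ((VP.proj 1).U _)).tf ((VP.proj 2).U _))
    (exists_frame hsq y1 fun j => U_ne (by
      rw [cub_adj]; exact pow_ne_zero 2 (v2 j (Finset.mem_univ j))) (x1 j))
  refine ⟨fun j => U (w j) (U (adj (v j)) (x j)), fun j => adj_U _ (y1 j), w2, fun σ j => ?_⟩
  obtain ⟨f, D⟩ := exists_dp hsq (g1 σ j)
  beta_reduce
  rw [← S1 w1, ← S1 v1, ← x3, D.adj, D.symm.U, D.U]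
  simp only [G, smul_smul, mul_inv_cancel₀ (h.ne σ j), one_smul]

end Vale.Agent.P011LS
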