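import Vale.Agent.P011LS.Inn
import Vale.Agent.P011LR.Cyc
import Vale.Agent.P011LX.Ext
import Vale.Agent.P011LX.Main

/-!
The assembly for the groups of type `E₆`.
-/

namespace Vale.Agent.P011LS

open P011L P011LE

theorem ie : IE := fun k K _ _ _ _ _ _ _ _ _ _ _ h1 h2 h3 => by
  have : CharZero K := charZero_of_injective_algebraMap (algebraMap k K).injective
  exact P011LX.inf_ext h1 h2 h3

theorem ext1' (hi : IND) : EXT1 := ext1 (nf1 hi P011LR.singS P011LR.cyca) ie

theorem he (hc : CE) (hi : IND) (ha : AE) (ho : OE) : HE :=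
  he_of' (dde hc) (nf1 hi P011LR.singS P011LR.cyca) ha ie P011LX.dict4 ho

end Vale.Agent.P011LS
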