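import Vale.Agent.P011LS.Ta
import Vale.Agent.P011LS.Geo

/-!
The grading defined by an element with `h ^ 3 = h`, and opposite extremal elements.
-/

namespace Vale.Agent.P011LS

open P011L P011LD P011LE

variable {K : Type} [Field K] [CharZero K] {h y : R K}

/-- The adjoint map. -/
def ad (h : R K) : R K →ₗ[K] R K := LinearMap.mulLeft K h - LinearMap.mulRight K h

omit [CharZero K] in
theorem ad_apply (h y : R K) : ad h y = h * y - y * h := rfl

omit [CharZero K] in
theorem ad_five (h3 : h * h * h = h) (y : R K) :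
    ad h (ad h (ad h (ad h (ad h y)))) = (5 : K) • ad h (ad h (ad h y)) - (4 : K) • ad h y := by
  have q1 (w : R K) : h * (h * (h * w)) = h * w := by rw [← mul_assoc, ← mul_assoc, h3]
  have q2 : h * (h * h) = h := by rw [← mul_assoc, h3]
  simp only [ad_apply, mul_sub, sub_mul, mul_assoc, q1, q2]
  module

theorem ad_ind (h3 : h * h * h = h) (hh : h ∈ gl K) {M : Type} [AddCommGroup M] [Module K M]
    (ψ : R K →ₗ[K] M) (e : ∀ (i : ℤ), ∀ y ∈ gl K, ad h y = (i : K) • y → ψ y = 0)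
    (hy : y ∈ gl K) : ψ y = 0 := by
  have m1 : ad h y ∈ gl K := gl_br hh hy
  have m2 : ad h (ad h y) ∈ gl K := gl_br hh m1
  have m3 : ad h (ad h (ad h y)) ∈ gl K := gl_br hh m2
  have m4 : ad h (ad h (ad h (ad h y))) ∈ gl K := gl_br hh m3
  have k (i : ℤ) (a b c d : K) (r : a * i = 0 ∧ b * i = a - 4 ∧ c * i = b ∧ d * i = c + 5 ∧ i = d) :
      ψ (a • y + b • ad h y + c • ad h (ad h y) + d • ad h (ad h (ad h y)) +
        ad h (ad h (ad h (ad h y)))) = 0 := by
    refine e i _ (add_mem (add_mem (add_mem (add_mem ((gl K).smul_mem _ hy) ((gl K).smul_mem _ m1))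
      ((gl K).smul_mem _ m2)) ((gl K).smul_mem _ m3)) m4) ?_
    simp only [map_add, map_smul, ad_five h3]
    linear_combination (norm := module) -r.1 • y - r.2.1 • ad h y - r.2.2.1 • ad h (ad h y) -
      r.2.2.2.1 • ad h (ad h (ad h y)) - r.2.2.2.2 • ad h (ad h (ad h (ad h y)))
  have k0 := k 0 4 0 (-5) 0 (by norm_num)
  have k1 := k 1 0 (-4) (-4) 1 (by norm_num)
  have k2 := k (-1) 0 4 (-4) (-1) (by norm_num)
  have k3 := k 2 0 (-2) (-1) 2 (by norm_num)
  have k4 := k (-2) 0 2 (-1) (-2) (by norm_num)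
  simp only [map_add, map_smul] at k0 k1 k2 k3 k4
  linear_combination (norm := module) (4⁻¹ : K) • k0 - (6⁻¹ : K) • (k1 + k2) + (24⁻¹ : K) • (k3 + k4)

theorem jm : JM := fun k K _ _ _ _ _ _ o p Γ X hp x hf => by
  have := IsAlgClosure.isAlgClosed k (K := K)
  have : Algebra.IsAlgebraic ℚ K := Algebra.IsAlgebraic.trans ℚ k K
  obtain ⟨y, m, e, f⟩ := ginv_fix o hp x hf
  have s := sl_ta o hp.pd Γ
  have q1 (w : R K) : X * (X * w) = 0 := by rw [← mul_assoc, x.sq, zero_mul]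
  have q2 (w : R K) : X * (y * (X * w)) = X * w := by rw [← mul_assoc, ← mul_assoc, e]
  have q3 : X * (y * X) = X := by rw [← mul_assoc, e]
  obtain ⟨h, rh⟩ : ∃ h, h = X * y - y * X := ⟨_, rfl⟩
  have h3 : h * h * h = h := by simp [rh, mul_sub, sub_mul, mul_assoc, q1, q2, q3]
  have h1 : h * X = X := by simp [rh, sub_mul, mul_assoc, x.sq, q3]
  have h2 : X * h = -X := by simp [rh, mul_sub, q1, q3]
  have k (w : R K) (a : w ∈ gl K ∧ w ∈ Fx Γ (ta o p)) : ad h w ∈ gl K ∧ ad h w ∈ Fx Γ (ta o p) :=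
    ⟨gl_br (rh ▸ gl_br x.mem m) a.1, fun σ b => by
      rw [ad_apply, ta_br, a.2 σ b, rh, ta_br, f σ b, show ta o p σ X = X from hf σ b]⟩
  have k1 := k y ⟨m, f⟩
  have k2 := k _ k1
  have k3 := k _ k2
  have k4 := k _ k3
  have e1 : (4⁻¹ : K) • ((h * h - h) * y * (h * h + h)) = (24⁻¹ : K) • ad h (ad h (ad h (ad h y))) +
      (-12⁻¹ : K) • ad h (ad h (ad h y)) + (-24⁻¹ : K) • ad h (ad h y) + (12⁻¹ : K) • ad h y := by
    have q1 (w : R K) : h * (h * (h * w)) = h * w := by rw [← mul_assoc, ← mul_assoc, h3]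
    have q2 : h * (h * h) = h := by rw [← mul_assoc, h3]
    simp only [ad_apply, mul_sub, sub_mul, mul_add, mul_assoc, q1, q2]
    module
  have e2 : X * ((4⁻¹ : K) • ((h * h - h) * y * (h * h + h))) * X = X := by
    simp only [mul_smul_comm, smul_mul_assoc, ← mul_assoc X, mul_sub, h2, neg_mul, neg_neg]
    simp only [mul_assoc _ _ X, add_mul, h1, mul_add, sub_mul, neg_mul, q3]
    module
  refine ⟨_, ⟨fun e0 => x.ne (by rw [← e2, e0, mul_zero, zero_mul]), ?_, ?_⟩, e2, ?_⟩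
  · have : (h * h + h) * (h * h - h) = 0 := by
      simp only [mul_sub, add_mul, ← mul_assoc, h3]
      abel
    rw [smul_mul_smul_comm, mul_assoc _ _ (_ * _), mul_assoc _ y (h * h + h), mul_assoc _ y,
      ← mul_assoc (h * h + h), this]
    simp
  · rw [e1]
    exact add_mem (add_mem (add_mem ((gl K).smul_mem _ k4.1) ((gl K).smul_mem _ k3.1))
      ((gl K).smul_mem _ k2.1)) ((gl K).smul_mem _ k1.1)
  · rw [e1]
    exact s.add_mem (s.add_mem (s.add_mem (s.smul_mem (by simp [map_ofNat]) k4.2)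
      (s.smul_mem (by simp [map_ofNat]) k3.2)) (s.smul_mem (by simp [map_ofNat]) k2.2))
      (s.smul_mem (by simp [map_ofNat]) k1.2)

end Vale.Agent.P011LS
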