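import Vale.Agent.P011LS.Fr

/-!
The normal form of the inner descent data.
-/

open Matrix

namespace Vale.Agent.P011LS

open P011LD P011LE P011LG P011LR P011.D4 P011.E6 P011.E6.Alb

variable {k K : Type} [Field k] [Field K] [Algebra k K] [CharZero K] {a b c : Kˣ}
  {π : (K ≃ₐ[k] K) →* Equiv.Perm (Fin 3)} {P : (K ≃ₐ[k] K) → Alb a b c → Alb a b c}
  {l : (K ≃ₐ[k] K) → K} {m : (K ≃ₐ[k] K) → Fin 3 → K}

omit [CharZero K] in
theorem PF.cj (h : PF π P l m) {φ : Alb a b c ≃ₗ[K] Alb a b c} (hφ : φ ∈ Inv a b c) :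
    PF π (P011LR.cj φ P) l m := by
  refine ⟨fun σ => ?_, h.ne, fun σ τ => (h.mul σ τ).imp fun z e => ⟨fun x => ?_, e.2⟩,
    fun x => (h.cont (φ x)).imp fun σ _ ⟨e1, t, e2, e3⟩ =>
      ⟨e1, t, cj_eq φ (by rw [e2, map_smul]), e3⟩⟩
  · have := ((SS.of_sim (k := k) φ.symm one_ne_zero fun x => (inv_mem hφ x).trans
      (one_mul _).symm).comp (h.ss σ)).comp (SS.of_sim φ one_ne_zero fun x =>
        (hφ x).trans (one_mul _).symm)
    rwa [one_mul, mul_one, one_mul, map_one, mul_one] at this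
  · simp only [P011LR.cj, LinearEquiv.apply_symm_apply, e.1, map_smul]

omit [CharZero K] in
theorem cub_sum (t : Fin 3 → K) (ρ : Equiv.Perm (Fin 3)) :
    cub (t 0 • ee (ρ 0) + t 1 • ee (ρ 1) + t 2 • ee (ρ 2) : Alb a b c) = t 0 * t 1 * t 2 := by
  have h1 := Equiv.sum_comp ρ fun i => t (ρ.symm i) • (ee i : Alb a b c)
  have h2 := Equiv.prod_comp ρ.symm t
  simp only [Equiv.symm_apply_apply, Fin.sum_univ_three, Fin.prod_univ_three] at h1 h2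
  rw [h1, ← h2]
  simp [cub, ee, e1, e2, e3]

/-- The genuine action. -/
def rg (π : (K ≃ₐ[k] K) →* Equiv.Perm (Fin 3)) (P : (K ≃ₐ[k] K) → Alb a b c → Alb a b c)
    (l : (K ≃ₐ[k] K) → K) (m : (K ≃ₐ[k] K) → Fin 3 → K) (η : K) (σ : K ≃ₐ[k] K) (x : Alb a b c) :
    Alb a b c := (η / σ η * l σ)⁻¹ • wk (fun i => m σ ((π σ)⁻¹ i)) (P σ x)

theorem PF.na (h : PF π P l m) (h3 : ∀ σ j, m σ j ^ 3 = l σ) {η : K} (hη : η ≠ 0)
    (he : ∀ σ j, P σ (ee j) = (m σ j * (η / σ η)) • ee (π σ j)) :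
    NA ⊤ (rg π P l m η) ∧ ∀ σ j, rg π P l m η σ (ee j) = ee (π σ j) := by
  have h1 : ∀ σ : K ≃ₐ[k] K, σ η ≠ 0 := fun σ => (map_ne_zero σ).2 hη
  refine ⟨⟨⟨fun σ _ x y => ?_, fun σ _ t x => ?_, fun σ _ τ _ x => ?_,
    fun x => ((h.cont x).and (Op.fix ⊤ η)).imp fun σ _ ⟨⟨e1, t, e2, e3⟩, e4⟩ => ?_⟩,
    fun σ _ x => ?_⟩, fun σ j => ?_⟩
  · simp only [rg, (h.ss σ).add, wk_add, smul_add]
  · simp only [rg, (h.ss σ).smul, wk_smul, smul_comm (σ t)]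
  · obtain ⟨z, e1, e2⟩ := h.mul σ τ
    have e3 : l σ * σ (l τ) = z ^ 3 * l (σ * τ) := by
      rw [← h3 σ (π τ 0), ← h3 τ 0, ← h3 _ 0, map_pow, ← mul_pow, e2, mul_pow]
    have e4 : ((fun i => m σ ((π σ)⁻¹ i)) * fun i => σ (m τ ((π τ)⁻¹ ((π σ)⁻¹ i)))) =
        (fun _ => z) * fun i => m (σ * τ) ((π (σ * τ))⁻¹ i) := funext fun i => by
      have := e2 ((π τ)⁻¹ ((π σ)⁻¹ i))
      rw [show π τ ((π τ)⁻¹ ((π σ)⁻¹ i)) = (π σ)⁻¹ i from (π τ).apply_symm_apply _] at this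
      rw [map_mul, _root_.mul_inv_rev]
      exact this
    have e5 := (h.ss σ).ne
    have e6 := (map_ne_zero σ).2 (h.ss τ).ne
    have e7 := (h.ss (σ * τ)).ne
    have e8 := h1 σ
    have e9 := h1 (σ * τ)
    rw [rg, rg, rg, (h.ss σ).smul, (h.ss σ).wk (fun i => ⟨_, he σ i⟩) fun i => h.ne τ _, e1,
      wk_smul, wk_wk, e4, ← wk_wk, wk_const, wk_smul, smul_smul, smul_smul, smul_smul]
    congr 1
    simp only [map_inv₀, map_mul, map_div₀, AlgEquiv.mul_apply] at *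
    field_simp
    linear_combination e3
  · have := h.ne σ 0
    rw [e3] at this
    rw [rg, funext fun i => e3 _, wk_const, e2, ← h3 σ 0, e3, e4, smul_smul, smul_smul]
    rw [show (η / η * t ^ 3)⁻¹ * t ^ 2 * t = 1 by field_simp, one_smul]
  · have e1 := (h.ss σ).cub ((1 : K) • ee 0 + (1 : K) • ee 1 + (1 : K) • ee 2)
    have e2 := cub_sum (a := a) (b := b) (c := c) (fun _ => 1) 1
    have e3 := Equiv.prod_comp (π σ)⁻¹ (m σ)
    simp only [Equiv.Perm.one_apply, Fin.prod_univ_three] at e2 e3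
    rw [e2, one_smul, one_smul, one_smul, (h.ss σ).add, (h.ss σ).add, he, he, he,
      cub_sum fun j => m σ j * (η / σ η)] at e1
    have e4 : (m σ 0 * m σ 1 * m σ 2) ^ 3 = l σ ^ 3 := by rw [mul_pow, mul_pow, h3, h3, h3]; ring
    have e5 := (h.ss σ).ne
    have e6 := div_ne_zero hη (h1 σ)
    have e7 : m σ 0 * m σ 1 * m σ 2 ≠ 0 := mul_ne_zero (mul_ne_zero (h.ne _ _) (h.ne _ _)) (h.ne _ _)
    rw [rg, cub_smul, cub_wk, e3, (h.ss σ).cub]
    simp only [mul_one, map_one] at e1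
    generalize η / σ η = κ at *
    field_simp
    apply mul_left_cancel₀ e7
    linear_combination σ (cub x) * e4 - σ (cub x) * l σ ^ 2 * e1
  · have e5 := h.ne σ j
    have e6 := h1 σ
    rw [rg, he, wk_smul, wk_ee, show (π σ)⁻¹ (π σ j) = j from (π σ).symm_apply_apply j, smul_smul,
      smul_smul, ← h3 σ j, show (η / σ η * m σ j ^ 3)⁻¹ * (m σ j * (η / σ η)) * m σ j ^ 2 = 1 by
        field_simp, one_smul]

omit [CharZero K] in
theorem PF.fix (h : PF π P l m) (h1 : ∀ σ, π σ ^ 3 = 1) (h2 : ∀ σ, π σ = 1 → ∀ j, m σ j = m σ 0)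
    {r : K ≃ₐ[k] K} (hr : π r = finRotate 3) (h3 : m r 0 = m r 1) (σ : K ≃ₐ[k] K) :
    σ (m r 2 / m r 0) = m r 2 / m r 0 := by
  have k1 : ∀ σ : K ≃ₐ[k] K, π σ = 1 → σ (m r 2 / m r 0) = m r 2 / m r 0 := fun σ e => by
    have e0 : π (r⁻¹ * σ * r) = 1 := by simp [e]
    obtain ⟨z, -, e1⟩ := h.mul r (r⁻¹ * σ * r)
    obtain ⟨y, -, e2⟩ := h.mul σ r
    simp only [e0, h2 _ e0, h2 _ e, Equiv.Perm.one_apply, ← mul_assoc, mul_inv_cancel,
      one_mul] at e1 e2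
    have := h.ne r 0
    have := (map_ne_zero σ).2 (h.ne r 0)
    rw [map_div₀]
    field_simp
    apply mul_left_cancel₀ (mul_ne_zero (h.ne σ 0) ((map_ne_zero r).2 (h.ne (r⁻¹ * σ * r) 0)))
    linear_combination m r 0 * r (m (r⁻¹ * σ * r) 0) * e2 2 + y * m (σ * r) 2 * e1 0 -
      m r 2 * r (m (r⁻¹ * σ * r) 0) * e2 0 - y * m (σ * r) 0 * e1 2
  have k2 : r (m r 2 / m r 0) = m r 2 / m r 0 := by
    have e0 : π (r * (r * r)) = 1 := by rw [← h1 r, map_mul, map_mul, pow_three]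
    obtain ⟨z, -, e1⟩ := h.mul r r
    obtain ⟨y, -, e2⟩ := h.mul r (r * r)
    have e3 := congrArg r (e1 0)
    have e4 := congrArg r (e1 1)
    have e5 := e2 0
    have e6 := e2 1
    rw [h2 _ e0 1, ← e5] at e6
    simp only [map_mul, hr, ← h3, show finRotate 3 0 = 1 from rfl, show finRotate 3 1 = 2 from rfl,
      show finRotate 3 2 = 0 from rfl, Equiv.Perm.mul_apply] at e3 e4 e6
    have := h.ne r 0
    have := (map_ne_zero r).2 (h.ne r 0)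
    rw [map_div₀]
    field_simp
    apply mul_left_cancel₀ ((map_ne_zero r).2 ((map_ne_zero r).2 (h.ne r 0)))
    linear_combination m r 0 * e4 + r z * e6 - m r 2 * e3
  rcases (by decide : ∀ g : Equiv.Perm (Fin 3), g ^ 3 = 1 → g = 1 ∨ g * (finRotate 3)⁻¹ = 1 ∨
    g * (finRotate 3)⁻¹ * (finRotate 3)⁻¹ = 1) _ (h1 σ) with e | e | e
  · exact k1 σ e
  · rw [← inv_mul_cancel_right σ r, AlgEquiv.mul_apply, k2, k1 _ (by simpa [hr] using e)]
  · rw [← inv_mul_cancel_right σ r, ← inv_mul_cancel_right (σ * r⁻¹) r, AlgEquiv.mul_apply,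
      AlgEquiv.mul_apply, k2, k2, k1 _ (by simpa [hr] using e)]

theorem exists_pf {p : (K ≃ₐ[k] K) → GL I K} (h : P011LE.DD 1 p) {d : (K ≃ₐ[k] K) → GL (Fin 3) K}
    (h1 : Cmp 1 p d) (h2 : ∀ σ, (d σ).1 = mono (π σ) (m σ)) :
    ∃ l, PF π (fun σ x => toA 1 1 1 1 (p σ) (sd σ x)) l m := by
  choose l l1 l2 using h.sim
  have h3 : ∀ σ j, m σ j ≠ 0 := fun σ j e => by
    have := congrFun₂ (d σ).inv_mul j j
    simp [h2, mul_apply, mono, e] at this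
  refine ⟨l, fun σ => ?_, h3, fun σ τ => (h1.mul σ τ).imp fun z e => ⟨fun x => ?_, fun j => ?_⟩,
    fun x => (h1.cont.and (Op.vec ⊤ ((Psi 1 1 1 1).symm x))).imp
      fun σ _ ⟨⟨_, t, e1, e2⟩, e3⟩ => ?_⟩
  · have := (SS.of_sim (k := k) (toA 1 1 1 1 (p σ)) (l1 σ) fun x => by
      obtain ⟨y, rfl⟩ := (Psi 1 1 1 1).surjective x
      rw [toA_apply, cub_Psi _ _ _ _ (mul_one 1).symm, cub_Psi _ _ _ _ (mul_one 1).symm, l2]).comp
        (ss_sd (σ := σ))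
    rwa [one_mul, map_one, mul_one] at this
  · obtain ⟨y, rfl⟩ := (Psi 1 1 1 1).surjective x
    have e1 : (p σ).1 * (p τ).1.map σ = _ := e.1
    simp only [sd_Psi, toA_apply, ← map_smul, ← smul_mulVec, ← e1, ← mulVec_mulVec]
    exact congrArg (fun v => Psi 1 1 1 1 (_ *ᵥ v))
      (P011LT.map_mulVec' (σ : K →+* K) _ (τ ∘ y)).symm
  · have e1 : (d σ).1 * (d τ).1.map σ = _ := e.2
    simpa [h2, mul_apply, mono, apply_ite σ] using congrFun₂ e1 (π σ (π τ j)) j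
  · have e4 : ∀ j, π σ j = j ∧ m σ j = t := fun j => by
      have := congrFun₂ ((h2 σ).symm.trans e2) (π σ j) j
      by_cases e : π σ j = j
      · exact ⟨e, by simpa [mono, e] using this⟩
      · exact absurd (by simpa [mono, e] using this) (h3 σ j)
    refine ⟨Equiv.ext fun j => (e4 j).1, t, ?_, fun j => (e4 j).2⟩
    rw [sd, e3, toA_apply, e1, smul_mulVec, one_mulVec, map_smul, LinearEquiv.apply_symm_apply]

omit [CharZero K] in
theorem nf1 (hi : IND) (hs : SING) (hc : CYCA) : NF1 := fun k K _ _ _ _ _ p h => by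
  have := IsAlgClosure.isAlgClosed k (K := K)
  have : CharZero K := charZero_of_injective_algebraMap (algebraMap k K).injective
  obtain ⟨π, m, d, h1, h2, h3, h4, h5⟩ := hi k K 1 p h
  obtain ⟨l, F⟩ := exists_pf h h1 h2
  obtain ⟨θ, t1, t2⟩ := F.norm
  have F1 := F.tw t1 one_ne_zero
  simp only [map_one, div_one, mul_one] at F1
  obtain ⟨X, x1, x2, x3⟩ := F1.frame hs t2
  obtain ⟨η, hη⟩ := IsAlgClosed.exists_pow_nat_eq (tf (cross (X 0) (X 1)) (X 2)) three_pos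
  have η0 : η ≠ 0 := fun e => x2 (by rw [← hη, e, zero_pow three_ne_zero])
  have x4 : ∀ j, adj (η⁻¹ • X j) = 0 := fun j => by rw [adj_smul, x1, smul_zero]
  obtain ⟨φ, f1, f2, f3, f4⟩ := trans_frame hsq (x4 0) (x4 1) (x4 2) (by
    rw [← smul_add, ← smul_add, cub_smul, cub_frame (x1 0) (x1 1) (x1 2), ← hη]; field_simp)
  have f5 : ∀ j, φ (ee j) = η⁻¹ • X j := fun j => by fin_cases j; exacts [f2, f3, f4]
  have F2 := F1.cj (El_le f1)
  obtain ⟨n1, n2⟩ := F2.na t2 η0 fun σ j => cj_eq φ (by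
    have := (map_ne_zero σ).2 η0
    rw [f5, (F.ss σ).smul, x3, map_smul, f5, smul_smul, smul_smul, map_inv₀]
    congr 1
    field_simp)
  obtain ⟨a, b, c, g, μ, g1, g2, g3, g4, g5⟩ := hc k K 1 1 1 π _ n1 n2 h3
  have key : ∀ σ x z y, φ (g z) = Psi 1 1 1 1 x → rg π (P011LR.cj φ fun σ x =>
      toA 1 1 1 1 (p σ) (sd σ x)) l (fun σ j => m σ j * θ (π σ j) / σ (θ j)) η σ (g z) = g y →
      wk θ (g.symm (φ.symm (Psi 1 1 1 1 ((p σ).1 *ᵥ (σ ∘ x))))) = (η / σ η * l σ) •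
        wk (fun i => σ (θ ((π σ)⁻¹ i)) / m σ ((π σ)⁻¹ i)) y := fun σ x z y e1 e2 => by
    have w : ∀ {h : Fin 3 → K}, (∀ i, h i ≠ 0) → ∀ x, g (wk h x) = wk h (g x) := fun hh x =>
      (SS.of_sim (k := k) g g1 g2).wk (π := 1) g3 hh x
    have e3 := mul_ne_zero (div_ne_zero η0 ((map_ne_zero σ).2 η0)) (F.ss σ).ne
    rw [rg, inv_smul_eq_iff₀ e3, P011LR.cj, e1, sd_Psi, toA_apply, ← map_smul,
      ← g.apply_symm_apply (φ.symm _), ← w fun i => F1.ne σ _, g.injective.eq_iff] at e2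
    rw [← wk_smul, ← e2, wk_wk]
    refine congrArg (fun h => wk h _) (funext fun i => ?_)
    have := F.ne σ ((π σ)⁻¹ i)
    have := (map_ne_zero σ).2 (t1 ((π σ)⁻¹ i))
    rw [Pi.mul_apply, show π σ ((π σ)⁻¹ i) = i from (π σ).apply_symm_apply i]
    field_simp
  have sj : ∀ x, ∃ z, φ (g z) = Psi 1 1 1 1 x ∧ g.symm (φ.symm (Psi 1 1 1 1 x)) = z := fun x =>
    ⟨_, by simp, rfl⟩
  refine ⟨π, a, b, c, (Psi 1 1 1 1).trans (φ.symm.trans (g.symm.trans (wkE θ t1))),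
    ⟨(θ 0 * θ 1 * θ 2) ^ 2 / μ, div_ne_zero (pow_ne_zero 2 (mul_ne_zero (mul_ne_zero (t1 0) (t1 1))
      (t1 2))) g1, fun x => ?_⟩, (F.cont 0).imp fun σ _ e => e.1, h3, fun σ e => ⟨η / σ η * l σ *
      (m σ 0)⁻¹ ^ 2, fun x => ?_⟩, h5.imp_right fun ⟨s1, r, _, r1, r2⟩ => ⟨s1, r,
      Units.mk0 _ (div_ne_zero (F.ne r 2) (F.ne r 0)), r1,
      F.fix h3 (fun σ => h4 σ rfl) r1 r2, η / r η * l r * (m r 0 * m r 2)⁻¹, fun x => ?_⟩⟩ <;>
    obtain ⟨z, z1, z2⟩ := sj x <;> simp only [LinearEquiv.trans_apply, wkE_apply, z2]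
  · rw [cub_wk, ← cub_Psi 1 1 1 1 (mul_one 1).symm, ← z1, El_le f1, g2]
    field_simp
  · rw [key σ x z _ z1 (g4 σ e z), mul_smul _ (_ ^ 2), ← wk_const, e]
    congr 1
    have := F.ne σ 0
    ext1 <;> simp [wk, amap, h4 σ rfl e, omap_smul, smul_smul] <;>
      field_simp
  · rw [key r x z _ z1 (g5 r r1 z), mul_smul _ (_⁻¹), r1]
    congr 1
    have := F.ne r 0
    have := F.ne r 2
    ext1 <;> simp [wk, P011.E6H.ph, omap_smul, smul_smul, ← r2,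
      show (finRotate 3)⁻¹ 0 = 2 from rfl, show (finRotate 3)⁻¹ 1 = 0 from rfl,
      show (finRotate 3)⁻¹ 2 = 1 from rfl] <;> field_simp

end Vale.Agent.P011LS
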