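import Vale.Agent.P011LS.Fin
import Vale.Agent.P011LO.Fin
import Vale.Agent.P011LW.Fin
import Vale.Agent.P011LB.TA
import Vale.Agent.P011LC.Start
import Vale.Agent.P011LH.Main
import Vale.Agent.P011LJ.Dict
import Vale.Agent.P011LN.Main
import Vale.Agent.P011LQ.BR2
import Vale.Agent.P011LR.RedH
import Vale.Agent.P011LZ.Main
import Vale.Agent.P011LZ.Apx
import Vale.Agent.P011LF.Main
import Vale.Agent.P011LL.Main

/-!
The target.
-/

namespace Vale.Agent.P011LS

open P011L P011LE

theorem hd : HD :=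
  P011LH.hd_of (P011LC.start P011LN.cd) P011LQ.br2 P011LR.redH P011LZ.sgn P011LJ.dict

theorem int_nfb (h : NFB) : INT :=
  P011LT.int_of' P011LB.ta' (he_fin P011LO.iso2' P011LW.pair' h) hd

theorem int : INT := int_nfb (P011LF.nfb P011LL.land P011LZ.apx P011LZ.reps)

end Vale.Agent.P011LS
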