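import Vale.Agent.P011LS.Dde
import Vale.Agent.P011LR.Basic

/-!
Semilinear similarities, dual pairs and the quadratic operators.
-/

namespace Vale.Agent.P011LS

open P011LD P011LG P011LR P011.D4 P011.E6 P011.E6.Alb

variable {k K : Type} [Field k] [Field K] [Algebra k K] {a b c a' b' c' : Kˣ} {σ : K ≃ₐ[k] K}

/-- The diagonal idempotents. -/
def ee (i : Fin 3) : Alb a b c := ![e1, e2, e3] i

/-- The diagonal operators. -/
def wk (g : Fin 3 → K) (x : Alb a b c) : Alb a b c :=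
  ⟨g 0 ^ 2 * x.d1, g 1 ^ 2 * x.d2, g 2 ^ 2 * x.d3, (g 1 * g 2) • x.x1, (g 2 * g 0) • x.x2,
    (g 0 * g 1) • x.x3⟩

theorem wk_wk (g h : Fin 3 → K) (x : Alb a b c) : wk g (wk h x) = wk (g * h) x := by
  ext1 <;> simp only [wk, Pi.mul_apply, smul_smul] <;> first | ring1 | (congr 1; ring1)

theorem wk_const (t : K) (x : Alb a b c) : wk (fun _ => t) x = t ^ 2 • x := by
  ext1 <;> simp [wk, sq]

theorem wk_add (g : Fin 3 → K) (x y : Alb a b c) : wk g (x + y) = wk g x + wk g y := by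
  ext1 <;> simp [wk, mul_add]

theorem wk_smul (g : Fin 3 → K) (t : K) (x : Alb a b c) : wk g (t • x) = t • wk g x := by
  ext1 <;> simp only [wk, d1_smul, d2_smul, d3_smul, x1_smul, x2_smul, x3_smul, smul_smul] <;>
    first | ring1 | (congr 1; ring1)

theorem cub_wk (g : Fin 3 → K) (x : Alb a b c) :
    cub (wk g x) = (g 0 * g 1 * g 2) ^ 2 * cub x := by
  simp only [cub, wk, Oct.norm_smul, Oct.smul_mul_oct, Oct.mul_smul_oct, Oct.bil_smul_left]
  ring

theorem wk_ee (g : Fin 3 → K) (i : Fin 3) : wk g (ee i : Alb a b c) = g i ^ 2 • ee i := by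
  fin_cases i <;> ext1 <;> simp [wk, ee, e1, e2, e3]

/-- The diagonal operators as linear equivalences. -/
def wkE (g : Fin 3 → K) (h : ∀ i, g i ≠ 0) : Alb a b c ≃ₗ[K] Alb a b c :=
  wtE fun i => Units.mk0 (g i) (h i)

theorem wkE_apply (g : Fin 3 → K) (h : ∀ i, g i ≠ 0) (x : Alb a b c) : wkE g h x = wk g x := rfl

/-- The off-diagonal parts. -/
def Pc (i : Fin 3) (x : Alb a b c) : Prop := ∀ j, j ≠ i → cross (ee j) x = 0

theorem wk_pc (g : Fin 3 → K) {i : Fin 3} {x : Alb a b c} (h : Pc i x) :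
    g i • wk g x = (g 0 * g 1 * g 2) • x := by
  obtain ⟨d1, d2, d3, x1, x2, x3⟩ := x
  fin_cases i
  · have h1 := h 1 (by decide)
    have h2 := h 2 (by decide)
    simp [cross, ee, e2, e3, Alb.ext_iff] at h1 h2
    ext1 <;> simp [wk, h1, h2, smul_smul, mul_assoc]
  · have h1 := h 0 (by decide)
    have h2 := h 2 (by decide)
    simp [cross, ee, e1, e3, Alb.ext_iff] at h1 h2
    ext1 <;> simp [wk, h1, h2, smul_smul]
    congr 1
    ring
  · have h1 := h 0 (by decide)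
    have h2 := h 1 (by decide)
    simp [cross, ee, e1, e2, Alb.ext_iff] at h1 h2
    ext1 <;> simp [wk, h1, h2, smul_smul]
    congr 1
    ring

theorem pc_ind {p : Alb a b c → Prop} (h1 : ∀ x y, p x → p y → p (x + y))
    (h2 : ∀ i (t : K), p (t • ee i)) (h3 : ∀ i x, Pc i x → p x) (x : Alb a b c) : p x := by
  have e : x = x.d1 • ee 0 + x.d2 • ee 1 + x.d3 • ee 2 + ⟨0, 0, 0, x.x1, 0, 0⟩ +
      ⟨0, 0, 0, 0, x.x2, 0⟩ + ⟨0, 0, 0, 0, 0, x.x3⟩ := by
    ext1 <;> simp [ee, e1, e2, e3]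
  rw [e]
  refine h1 _ _ (h1 _ _ (h1 _ _ (h1 _ _ (h1 _ _ (h2 _ _) (h2 _ _)) (h2 _ _)) (h3 0 _ ?_))
    (h3 1 _ ?_)) (h3 2 _ ?_) <;> intro j hj <;> fin_cases j <;>
    first | exact absurd rfl hj | (ext1 <;> simp [cross, ee, e1, e2, e3])

/-- Semilinear similarities. -/
structure SS (σ : K ≃ₐ[k] K) (l : K) (f : Alb a b c → Alb a' b' c') : Prop where
  add : ∀ x y, f (x + y) = f x + f y
  smul : ∀ (t : K) x, f (t • x) = σ t • f x
  bij : Function.Bijective f
  ne : l ≠ 0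
  cub : ∀ x, cub (f x) = l * σ (cub x)

variable [CharZero K] {l : K} {f : Alb a b c → Alb a' b' c'}

theorem SS.tf_adj (h : SS σ l f) (x y : Alb a b c) :
    tf (adj (f x)) (f y) = l * σ (tf (adj x) y) := by
  apply mul_left_cancel₀ (two_ne_zero (α := K))
  have e : f ((-1 : K) • y) = (-1 : K) • f y := by rw [h.smul, map_neg, map_one]
  have := congrArg σ (two_tf_adj x y)
  simp only [map_mul, map_sub, map_ofNat] at this
  rw [two_tf_adj, ← e, ← h.add, ← h.add, h.cub, h.cub, h.cub]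
  linear_combination (-l) * this

theorem SS.tf_cross (h : SS σ l f) (x y z : Alb a b c) :
    tf (cross (f x) (f y)) (f z) = l * σ (tf (cross x y) z) := by
  have h1 := h.tf_adj (x + y) z
  rw [h.add, adj_add, adj_add, tf_add_left, tf_add_left, tf_add_left, tf_add_left,
    h.tf_adj, h.tf_adj, map_add, map_add] at h1
  linear_combination h1

theorem SS.adj_zero (h : SS σ l f) {x : Alb a b c} (hx : adj x = 0) : adj (f x) = 0 :=
  eq_zero_of_tf fun y => by
    obtain ⟨z, rfl⟩ := h.bij.2 y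
    rw [h.tf_adj, hx, tf_zero_left, map_zero, mul_zero]

theorem SS.cross_zero (h : SS σ l f) {x y : Alb a b c} (hx : cross x y = 0) :
    cross (f x) (f y) = 0 := eq_zero_of_tf fun y => by
  obtain ⟨z, rfl⟩ := h.bij.2 y
  rw [h.tf_cross, hx, tf_zero_left, map_zero, mul_zero]

omit [CharZero K] in
theorem SS.zero (h : SS σ l f) : f 0 = 0 := by
  simpa using h.smul 0 0

omit [CharZero K] in
theorem SS.ne_zero (h : SS σ l f) {x : Alb a b c} (hx : x ≠ 0) : f x ≠ 0 := fun e =>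
  hx (h.bij.1 (e.trans h.zero.symm))

theorem SS.wk (h : SS σ l f) {π : Equiv.Perm (Fin 3)} (h1 : ∀ i, ∃ μ : K, f (ee i) = μ • ee (π i))
    {g : Fin 3 → K} (hg : ∀ i, g i ≠ 0) (x : Alb a b c) :
    f (wk g x) = wk (fun i => σ (g (π⁻¹ i))) (f x) := by
  induction x using pc_ind with
  | h1 x y hx hy => rw [wk_add, h.add, h.add, wk_add, hx, hy]
  | h2 i t =>
    obtain ⟨μ, e⟩ := h1 i
    rw [wk_smul, wk_ee, h.smul, h.smul, h.smul, e, wk_smul, wk_smul, wk_ee, smul_comm μ]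
    simp
  | h3 i x hx =>
    have h2 : Pc (π i) (f x) := fun j hj => by
      obtain ⟨j, rfl⟩ := π.surjective j
      obtain ⟨μ, e⟩ := h1 j
      have := h.cross_zero (hx j fun e => hj (by rw [e]))
      rw [e, cross_smul_left, smul_eq_zero] at this
      refine this.resolve_left fun e0 => h.ne_zero (x := ee j) ?_ (by rw [e, e0, zero_smul])
      fin_cases j <;> simp [ee, e1, e2, e3, Alb.ext_iff]
    have h3 := wk_pc (fun i => σ (g (π⁻¹ i))) h2
    have h4 := Equiv.prod_comp π⁻¹ fun i => σ (g i)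
    simp only [Fin.prod_univ_three] at h4
    apply smul_right_injective _ ((map_ne_zero σ).2 (hg i))
    rw [h4, show π⁻¹ (π i) = i from π.symm_apply_apply i] at h3
    show σ (g i) • _ = σ (g i) • _
    rw [h3, ← h.smul, wk_pc g hx, h.smul, map_mul, map_mul]

/-- Dual pairs. -/
structure DP (σ : K ≃ₐ[k] K) (f f' : Alb a b c → Alb a b c) : Prop where
  s : SS σ 1 f
  s' : SS σ 1 f'
  tf : ∀ x y, tf (f x) (f' y) = σ (tf x y)

variable {f f' : Alb a b c → Alb a b c}

omit [CharZero K] in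
theorem DP.symm (h : DP σ f f') : DP σ f' f :=
  ⟨h.s', h.s, fun x y => by rw [tf_comm, h.tf, tf_comm]⟩

theorem DP.adj (h : DP σ f f') (x : Alb a b c) : adj (f x) = f' (adj x) := eq_of_tf fun z => by
  obtain ⟨w, rfl⟩ := h.s.bij.2 z
  rw [h.s.tf_adj, h.symm.tf, one_mul]

theorem DP.cross (h : DP σ f f') (x y : Alb a b c) : cross (f x) (f y) = f' (cross x y) :=
  eq_of_tf fun z => by
    obtain ⟨w, rfl⟩ := h.s.bij.2 z
    rw [h.s.tf_cross, h.symm.tf, one_mul]

/-- The quadratic operator. -/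
def U (w y : Alb a b c) : Alb a b c := tf w y • w + (-1 : K) • cross (adj w) y

theorem DP.U (h : DP σ f f') (w y : Alb a b c) : U (f w) (f' y) = f (U w y) := by
  rw [P011LS.U, P011LS.U, h.tf, h.adj, h.symm.cross, h.s.add, h.s.smul, h.s.smul, map_neg, map_one]

theorem cross_cross_adj (w y : Alb a b c) :
    cross w (cross (adj w) y) = cub w • y + tf w y • adj w := eq_of_tf fun z => by
  rw [cross_comm, tf_cross, cross_comm (adj w), tf_cross, cross_adj_cross, tf_add_right,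
    tf_add_left, tf_smul_right, tf_smul_right, tf_smul_left, tf_smul_left, tf_comm y w]
  ring

theorem adj_U (w : Alb a b c) {y : Alb a b c} (h : adj y = 0) : adj (U w y) = 0 := by
  have h1 := adj_cross (adj w) y
  rw [h, cross_zero_right, add_zero, tf_zero_right, zero_smul, add_zero, adj_adj,
    tf_smul_left] at h1
  rw [U, adj_add, adj_smul, adj_smul, cross_smul_left, cross_smul_right, cross_cross_adj, h1]
  module

theorem U_ne {w y : Alb a b c} (hw : cub w ≠ 0) (hy : y ≠ 0) : U w y ≠ 0 := fun h => by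
  have h1 := congrArg (tf (adj w)) h
  have h2 := congrArg (cross w) h
  rw [U, tf_add_right, tf_smul_right, tf_smul_right, ← tf_cross, Alb.cross_self, adj_adj, tf_adj_self,
    tf_smul_left, tf_smul_left, tf_zero_right] at h1
  have h3 : tf w y = 0 := (mul_eq_zero.1 (by linear_combination h1 : tf w y * cub w = 0)
    ).resolve_right hw
  rw [U, h3, zero_smul, zero_add, cross_smul_right, cross_cross_adj, h3, zero_smul, add_zero,
    cross_zero_right, smul_smul, smul_eq_zero] at h2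
  exact h2.elim (by simpa using hw) hy

omit [CharZero K] in
theorem U_sing {w : Alb a b c} (h : adj w = 0) (y : Alb a b c) : U w y = tf w y • w := by
  simp [U, h]

theorem SS.of_inv {g : Alb a b c ≃ₗ[K] Alb a b c} (h : g ∈ Inv a b c) :
    SS (1 : K ≃ₐ[k] K) 1 g :=
  ⟨g.map_add, g.map_smul, g.bijective, one_ne_zero, fun x => by rw [h x, one_mul]; rfl⟩

theorem exists_U (hsq : ∀ t : K, IsSquare t) {y z : Alb a b c} (h : adj y = 0) (hy : y ≠ 0)
    (hz : z ≠ 0) : ∃ w, tf (U w y) z ≠ 0 := by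
  obtain ⟨φ, h1, rfl⟩ := trans_sing hsq hy h
  obtain ⟨ψ, h2, h3⟩ := El_dual h1
  obtain ⟨z, rfl⟩ := φ.surjective z
  have D : DP (1 : K ≃ₐ[K] K) ψ φ := ⟨.of_inv (El_le h2), .of_inv (El_le h1), h3.symm⟩
  by_contra hc
  push Not at hc
  have k1 : ∀ u v : Oct a b c, z.d1 + Oct.norm v * z.d2 + Oct.norm u * z.d3 +
      Oct.bil (star (u * v)) z.x1 + Oct.bil u z.x2 + Oct.bil v z.x3 = 0 := fun u v => by
    have := hc (ψ ⟨1, 0, 0, 0, u, v⟩)
    rw [D.U, h3.symm] at this
    simpa [U, tf, cross, adj, e1] using this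
  have k2 : z.d1 = 0 := by simpa using k1 0 0
  have k3 : z.x2 = 0 ∧ z.d3 = 0 := by
    by_contra h0
    obtain ⟨u, hu⟩ := exists_ne (y := z.x2) (s := z.d3) (by tauto)
    exact hu (by simpa [k2, add_comm] using k1 u 0)
  have k4 : z.x3 = 0 ∧ z.d2 = 0 := by
    by_contra h0
    obtain ⟨u, hu⟩ := exists_ne (y := z.x3) (s := z.d2) (by tauto)
    exact hu (by simpa [k2, add_comm] using k1 0 u)
  have k5 : z.x1 = 0 := Oct.eq_zero_of_bil fun u => by
    simpa [k2, k3, k4, Oct.bil_comm] using k1 (star u) 1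
  exact hz (by rw [(Alb.ext k2 k4.2 k3.2 k5 k3.1 k4.1 : z = 0), map_zero])

/-- Three singular elements can be moved into general position. -/
theorem exists_frame (hsq : ∀ t : K, IsSquare t) {y : Fin 3 → Alb a b c} (h : ∀ j, adj (y j) = 0)
    (hy : ∀ j, y j ≠ 0) : ∃ w : Fin 3 → Alb a b c,
      tf (cross (U (w 0) (y 0)) (U (w 1) (y 1))) (U (w 2) (y 2)) ≠ 0 := by
  obtain ⟨w0, h0⟩ := exists_U hsq (h 0) (hy 0) (hy 0)
  have h1 : U w0 (y 0) ≠ 0 := fun e => h0 (by rw [e, tf_zero_left])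
  obtain ⟨φ, h2, h3⟩ := trans_sing hsq h1 (adj_U w0 (h 0))
  have h4 : cross (U w0 (y 0)) (φ e2) ≠ 0 := h3 ▸ cross_inv_ne_zero (El_le h2)
    (by simp [cross, e1, e2, Alb.ext_iff])
  obtain ⟨w1, h5⟩ := exists_U hsq (h 1) (hy 1) h4
  have h6 : cross (U w0 (y 0)) (U w1 (y 1)) ≠ 0 := fun e => h5 (by
    rw [← tf_cross, cross_comm, e, tf_zero_left])
  obtain ⟨w2, h7⟩ := exists_U hsq (h 2) (hy 2) h6
  exact ⟨![w0, w1, w2], by rwa [tf_comm] at h7⟩

end Vale.Agent.P011LS
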